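import Mathlib

namespace Vale.Agent.P012

open Finset

/-- One greedy step: `α / B = 1 / x + α₁ / (B x)` with `x = ⌈B / α⌉`. -/
private theorem greedy_step {α B : ℕ} (h1 : 1 ≤ α) (h2 : α < B) :
    ∃ x α₁ : ℕ, 2 ≤ x ∧ x ≤ B ∧ α₁ + B = α * x ∧ α₁ < α ∧
      (α : ℚ) / B = 1 / (x : ℚ) + (α₁ : ℚ) / ((B * x : ℕ) : ℚ) := by
  set q := (B - 1) / α with hq
  set r := (B - 1) % α with hr
  have e : α * q + r = B - 1 := Nat.div_add_mod (B - 1) α
  have hr' : r < α := Nat.mod_lt _ h1
  have hq1 : 1 ≤ q := by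
    rw [hq]
    exact (Nat.one_le_div_iff h1).mpr (by omega)
  have hqB : q ≤ B - 1 := Nat.div_le_self _ _
  have key : (α - 1 - r) + B = α * (q + 1) := by
    rw [mul_add, mul_one]
    omega
  refine ⟨q + 1, α - 1 - r, by omega, by omega, key, by omega, ?_⟩
  have keyQ : ((α - 1 - r : ℕ) : ℚ) + B = α * ((q : ℚ) + 1) := by exact_mod_cast key
  have hB : (B : ℚ) ≠ 0 := by
    have : 0 < B := by omega
    positivity
  have hx : ((q : ℚ) + 1) ≠ 0 := by positivity
  push_cast
  field_simp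
  linarith

/-- Iterated greedy (Fibonacci-Sylvester) steps. `a0` bounds the numerators, `G` is the target size
of the denominator. Hypothesis `hgrow` guarantees that at most `m` steps are needed, because
`a0 * B' ≥ B ^ 2` at every step `(α, B) ↦ (α x - B, B x)`, `x = ⌈B / α⌉`. -/
theorem greedy_iter (a0 G : ℕ) (m : ℕ) : ∀ α B : ℕ, 1 ≤ α → α ≤ a0 → α < B → B < G →
    G * a0 ^ (2 ^ m) ≤ a0 * B ^ (2 ^ m) →
    ∃ (S : Finset ℕ) (α' B' : ℕ), S.card ≤ m ∧ 0 < B' ∧ (∀ n ∈ S, B ≤ α * n) ∧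
      (∀ n ∈ S, α' * n < B') ∧ α' * B ≤ α * B' ∧
      (α : ℚ) / B = ∑ n ∈ S, (1 : ℚ) / n + (α' : ℚ) / B' ∧
      (α' = 0 ∨ (1 ≤ α' ∧ α' ≤ a0 ∧ G ≤ B' ∧ B' < G ^ 2)) := by
  induction m with
  | zero =>
    intro α B h1 h2 _ h4 h5
    exfalso
    simp only [pow_zero, pow_one] at h5
    have ha0 : 0 < a0 := by omega
    rw [mul_comm] at h5
    have := Nat.le_of_mul_le_mul_left h5 ha0
    omega
  | succ m ih =>
    intro α B h1 h2 h3 h4 h5
    obtain ⟨x, α₁, hx2, hxB, hα₁, hlt, heq⟩ := greedy_step h1 h3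
    have hB0 : 0 < B := by omega
    have hx0 : 0 < x := by omega
    have hBx0 : 0 < B * x := Nat.mul_pos hB0 hx0
    have hBle : B ≤ α * x := by omega
    have hBBx : B ≤ B * x := Nat.le_mul_of_pos_right B hx0
    by_cases hz : α₁ = 0
    · refine ⟨{x}, 0, B * x, by simp, hBx0, ?_, ?_, by simp, ?_, Or.inl rfl⟩
      · intro n hn
        rw [Finset.mem_singleton] at hn
        rw [hn]
        exact hBle
      · intro n _
        simpa using hBx0
      · rw [heq, hz]
        simp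
    have hα₁1 : 1 ≤ α₁ := Nat.one_le_iff_ne_zero.mpr hz
    have hα₁x : α₁ * x < B * x := Nat.mul_lt_mul_of_pos_right (by omega) hx0
    by_cases hG : G ≤ B * x
    · refine ⟨{x}, α₁, B * x, by simp, hBx0, ?_, ?_, ?_, ?_, Or.inr ⟨hα₁1, by omega, hG, ?_⟩⟩
      · intro n hn
        rw [Finset.mem_singleton] at hn
        rw [hn]
        exact hBle
      · intro n hn
        rw [Finset.mem_singleton] at hn
        rw [hn]
        exact hα₁x
      · calc α₁ * B ≤ α * B := Nat.mul_le_mul_right B hlt.le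
          _ ≤ α * (B * x) := Nat.mul_le_mul_left α hBBx
      · rw [heq]
        simp
      · calc B * x ≤ B * B := Nat.mul_le_mul_left B hxB
          _ < G * G := Nat.mul_self_lt_mul_self h4
          _ = G ^ 2 := (sq G).symm
    · push Not at hG
      have ha0 : 0 < a0 := by omega
      have hgrow : G * a0 ^ (2 ^ m) ≤ a0 * (B * x) ^ (2 ^ m) := by
        have k1 : B ^ 2 ≤ a0 * (B * x) := by
          calc B ^ 2 = B * B := sq B
            _ ≤ (α * x) * B := Nat.mul_le_mul_right B hBle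
            _ ≤ (a0 * x) * B := Nat.mul_le_mul_right B (Nat.mul_le_mul_right x h2)
            _ = a0 * (B * x) := by ring
        have k2 : (B ^ 2) ^ (2 ^ m) ≤ (a0 * (B * x)) ^ (2 ^ m) := Nat.pow_le_pow_left k1 _
        have k3 : B ^ (2 ^ (m + 1)) = (B ^ 2) ^ (2 ^ m) := by
          rw [← pow_mul, pow_succ, mul_comm]
        have k4 : a0 ^ (2 ^ (m + 1)) = a0 ^ (2 ^ m) * a0 ^ (2 ^ m) := by
          rw [← pow_add, pow_succ, mul_two]
        rw [k3, k4] at h5
        have k5 : (G * a0 ^ (2 ^ m)) * a0 ^ (2 ^ m) ≤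
            (a0 * (B * x) ^ (2 ^ m)) * a0 ^ (2 ^ m) := by
          calc (G * a0 ^ (2 ^ m)) * a0 ^ (2 ^ m) = G * (a0 ^ (2 ^ m) * a0 ^ (2 ^ m)) := by ring
            _ ≤ a0 * (B ^ 2) ^ (2 ^ m) := h5
            _ ≤ a0 * (a0 * (B * x)) ^ (2 ^ m) := Nat.mul_le_mul_left a0 k2
            _ = (a0 * (B * x) ^ (2 ^ m)) * a0 ^ (2 ^ m) := by rw [mul_pow]; ring
        exact Nat.le_of_mul_le_mul_right k5 (pow_pos ha0 _)
      obtain ⟨S₁, α', B', hc, hB', hS1, hS2, hcmp, heq1, halt⟩ :=
        ih α₁ (B * x) hα₁1 (by omega) (by omega) hG hgrow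
      have hxS : x ∉ S₁ := by
        intro hx
        have := hS1 x hx
        omega
      have hα'x : α' * x < B' := by
        have k1 : (α' * x) * B < B' * B := by
          calc (α' * x) * B = α' * (B * x) := by ring
            _ ≤ α₁ * B' := hcmp
            _ < B * B' := Nat.mul_lt_mul_of_pos_right (by omega) hB'
            _ = B' * B := mul_comm _ _
        exact Nat.lt_of_mul_lt_mul_right k1
      refine ⟨insert x S₁, α', B', ?_, hB', ?_, ?_, ?_, ?_, halt⟩
      · rw [Finset.card_insert_of_notMem hxS]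
        omega
      · intro n hn
        rcases Finset.mem_insert.mp hn with rfl | hn
        · exact hBle
        · calc B ≤ B * x := hBBx
            _ ≤ α₁ * n := hS1 n hn
            _ ≤ α * n := Nat.mul_le_mul_right n hlt.le
      · intro n hn
        rcases Finset.mem_insert.mp hn with rfl | hn
        · exact hα'x
        · exact hS2 n hn
      · calc α' * B ≤ α' * (B * x) := Nat.mul_le_mul_left α' hBBx
          _ ≤ α₁ * B' := hcmp
          _ ≤ α * B' := Nat.mul_le_mul_right B' hlt.le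
      · rw [heq, heq1, Finset.sum_insert hxS]
        ring

/-- The greedy head: after at most `m + 1` greedy steps the remainder `α / B` of `a / b` either
vanishes or has `α < b` and `b T ≤ B < (b T) ^ 2`. -/
theorem greedy_head {a b T m : ℕ} (ha : 1 ≤ a) (hab : a < b) (hT : 2 ≤ T) (hm : T ≤ 2 ^ (2 ^ m)) :
    ∃ (S : Finset ℕ) (α B : ℕ), S.card ≤ m + 1 ∧ 0 < B ∧ (∀ n ∈ S, 2 ≤ n) ∧
      (∀ n ∈ S, α * n < B) ∧ α < B ∧
      (a : ℚ) / b = ∑ n ∈ S, (1 : ℚ) / n + (α : ℚ) / B ∧
      (α = 0 ∨ (1 ≤ α ∧ α < b ∧ b * T ≤ B ∧ B < (b * T) ^ 2)) := by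
  obtain ⟨x, α₁, hx2, hxB, hα₁, hlt, heq⟩ := greedy_step ha hab
  have hB0 : 0 < b := by omega
  have hx0 : 0 < x := by omega
  have hBx0 : 0 < b * x := Nat.mul_pos hB0 hx0
  have hBBx : b ≤ b * x := Nat.le_mul_of_pos_right b hx0
  by_cases hz : α₁ = 0
  · refine ⟨{x}, 0, b * x, by simp, hBx0, ?_, ?_, hBx0, ?_, Or.inl rfl⟩
    · intro n hn
      rw [Finset.mem_singleton] at hn
      rw [hn]
      exact hx2
    · intro n _
      simpa using hBx0
    · rw [heq, hz]
      simp
  have hα₁1 : 1 ≤ α₁ := Nat.one_le_iff_ne_zero.mpr hz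
  have hα₁x : α₁ * x < b * x := Nat.mul_lt_mul_of_pos_right (by omega) hx0
  by_cases hG : b * T ≤ b * x
  · refine ⟨{x}, α₁, b * x, by simp, hBx0, ?_, ?_, by omega, ?_,
      Or.inr ⟨hα₁1, by omega, hG, ?_⟩⟩
    · intro n hn
      rw [Finset.mem_singleton] at hn
      rw [hn]
      exact hx2
    · intro n hn
      rw [Finset.mem_singleton] at hn
      rw [hn]
      exact hα₁x
    · rw [heq]
      simp
    · have k1 : b < b * T := by
        calc b = b * 1 := (mul_one b).symm
          _ < b * T := Nat.mul_lt_mul_of_pos_left (by omega) hB0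
      calc b * x ≤ b * b := Nat.mul_le_mul_left b hxB
        _ < (b * T) * (b * T) := Nat.mul_self_lt_mul_self k1
        _ = (b * T) ^ 2 := (sq _).symm
  · push Not at hG
    have hgrow : (b * T) * a ^ (2 ^ m) ≤ a * (b * x) ^ (2 ^ m) := by
      obtain ⟨M, hM⟩ : ∃ M, 2 ^ m = M + 1 :=
        ⟨2 ^ m - 1, by have : 0 < 2 ^ m := by positivity
                       omega⟩
      have k1 : (b * 2) ^ (2 ^ m) ≤ (b * x) ^ (2 ^ m) :=
        Nat.pow_le_pow_left (Nat.mul_le_mul_left b hx2) _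
      have k2 : a ^ M ≤ b ^ M := Nat.pow_le_pow_left hab.le _
      calc (b * T) * a ^ (2 ^ m) = (b * T) * (a ^ M * a) := by rw [hM, pow_succ]
        _ = a * (T * (b * a ^ M)) := by ring
        _ ≤ a * (2 ^ (2 ^ m) * (b * b ^ M)) :=
            Nat.mul_le_mul_left a (Nat.mul_le_mul hm (Nat.mul_le_mul_left b k2))
        _ = a * (b * 2) ^ (2 ^ m) := by
            rw [mul_pow b 2, hM, pow_succ b M]
            ring
        _ ≤ a * (b * x) ^ (2 ^ m) := Nat.mul_le_mul_left a k1
    obtain ⟨S₁, α', B', hc, hB', hS1, hS2, hcmp, heq1, halt⟩ :=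
      greedy_iter a (b * T) m α₁ (b * x) hα₁1 hlt.le (by omega) hG hgrow
    have hxS : x ∉ S₁ := by
      intro hx
      have := hS1 x hx
      omega
    have hα'x : α' * x < B' := by
      have k1 : (α' * x) * b < B' * b := by
        calc (α' * x) * b = α' * (b * x) := by ring
          _ ≤ α₁ * B' := hcmp
          _ < b * B' := Nat.mul_lt_mul_of_pos_right (by omega) hB'
          _ = B' * b := mul_comm _ _
      exact Nat.lt_of_mul_lt_mul_right k1
    refine ⟨insert x S₁, α', B', ?_, hB', ?_, ?_, ?_, ?_, ?_⟩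
    · rw [Finset.card_insert_of_notMem hxS]
      omega
    · intro n hn
      rcases Finset.mem_insert.mp hn with rfl | hn
      · exact hx2
      · by_contra hcon
        push Not at hcon
        have k1 := hS1 n hn
        have k2 : α₁ * n ≤ α₁ * x := Nat.mul_le_mul_left α₁ (by omega)
        omega
    · intro n hn
      rcases Finset.mem_insert.mp hn with rfl | hn
      · exact hα'x
      · exact hS2 n hn
    · calc α' ≤ α' * x := Nat.le_mul_of_pos_right α' hx0
        _ < B' := hα'x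
    · rw [heq, heq1, Finset.sum_insert hxS]
      ring
    · rcases halt with h | ⟨h1, h2, h3, h4⟩
      · exact Or.inl h
      · exact Or.inr ⟨h1, by omega, h3, h4⟩

end Vale.Agent.P012
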