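import Vale.Agent.P012.RepB
import Vale.Agent.P012.GreedyB

namespace Vale.Agent.P012

open Finset

/-- From `RepB N X h`: a fraction `α / B` with `B ≤ X` and `α N < B X` is a sum of at most `2 h`
distinct unit fractions. Proof as for `egyptian_of_rep`: `α N = q B + r`, `r < B ≤ X`, `q < X`. -/
theorem egyptian_of_repB {N X h α B : ℕ} (hN : RepB N X h) (hN0 : 0 < N) (hB0 : 0 < B)
    (hB : B ≤ X) (hq : α * N < B * X) :
    ∃ S : Finset ℕ, (∀ n ∈ S, 1 ≤ n) ∧ S.card ≤ 2 * h ∧ ∑ n ∈ S, (1 : ℚ) / n = α / B := by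
  classical
  set q := α * N / B with hqdef
  set r := α * N % B with hr
  have hdiv : α * N = q * B + r := by
    rw [hqdef, hr, mul_comm (α * N / B) B]; exact (Nat.div_add_mod _ _).symm
  have hrb : r < B := Nat.mod_lt _ hB0
  have hqX : q < X := by
    rw [hqdef, Nat.div_lt_iff_lt_mul hB0, mul_comm X B]
    exact hq
  obtain ⟨D₁, hD₁, hc₁, hs₁⟩ := hN q hqX
  obtain ⟨D₂, hD₂, hc₂, hs₂⟩ := hN r (lt_of_lt_of_le hrb hB)
  have hlt₂ : ∀ d ∈ D₂, d < B := fun d hd =>
    lt_of_le_of_lt (hs₂ ▸ Finset.single_le_sum (f := fun d => d) (fun _ _ => Nat.zero_le _) hd) hrb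
  have hdvd₁ : ∀ d ∈ D₁, d ∣ N := fun d hd => Nat.dvd_of_mem_divisors (hD₁ hd)
  have hdvd₂ : ∀ d ∈ D₂, d ∣ N := fun d hd => Nat.dvd_of_mem_divisors (hD₂ hd)
  have hpos : ∀ d, d ∣ N → 0 < d := fun d hd => Nat.pos_of_dvd_of_pos hd hN0
  have hinj : ∀ d d', d ∣ N → d' ∣ N → N / d = N / d' → d = d' := by
    intro d d' hd hd' h
    have h1 : d * (N / d) = N := Nat.mul_div_cancel' hd
    have h2 : d' * (N / d') = N := Nat.mul_div_cancel' hd'
    have h3 : 0 < N / d' := Nat.div_pos (Nat.le_of_dvd hN0 hd') (hpos d' hd')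
    rw [h] at h1
    exact Nat.eq_of_mul_eq_mul_right h3 (h1.trans h2.symm)
  set S₁ := D₁.image (fun d => N / d) with hS₁
  set S₂ := D₂.image (fun d => B * (N / d)) with hS₂
  have hS₁le : ∀ n ∈ S₁, 1 ≤ n ∧ n ≤ N := by
    intro n hn
    rw [hS₁, Finset.mem_image] at hn
    obtain ⟨d, hd, rfl⟩ := hn
    exact ⟨Nat.div_pos (Nat.le_of_dvd hN0 (hdvd₁ d hd)) (hpos d (hdvd₁ d hd)),
      Nat.div_le_self _ _⟩
  have hS₂gt : ∀ n ∈ S₂, N < n := by
    intro n hn
    rw [hS₂, Finset.mem_image] at hn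
    obtain ⟨d, hd, rfl⟩ := hn
    have h1 : d * (N / d) = N := Nat.mul_div_cancel' (hdvd₂ d hd)
    have h2 := hlt₂ d hd
    have h3 : 0 < N / d := Nat.div_pos (Nat.le_of_dvd hN0 (hdvd₂ d hd)) (hpos d (hdvd₂ d hd))
    calc N = d * (N / d) := h1.symm
      _ < B * (N / d) := Nat.mul_lt_mul_of_pos_right h2 h3
  have hdisj : Disjoint S₁ S₂ := by
    rw [Finset.disjoint_left]
    intro n h1 h2
    have := (hS₁le n h1).2
    have := hS₂gt n h2
    omega
  refine ⟨S₁ ∪ S₂, ?_, ?_, ?_⟩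
  · intro n hn
    rcases Finset.mem_union.1 hn with h | h
    · exact (hS₁le n h).1
    · have := hS₂gt n h
      omega
  · calc (S₁ ∪ S₂).card ≤ S₁.card + S₂.card := Finset.card_union_le _ _
      _ ≤ D₁.card + D₂.card := Nat.add_le_add Finset.card_image_le Finset.card_image_le
      _ ≤ 2 * h := by omega
  · rw [Finset.sum_union hdisj, hS₁, hS₂, Finset.sum_image, Finset.sum_image]
    · have hNq : (N : ℚ) ≠ 0 := by exact_mod_cast hN0.ne'
      have hbq : (B : ℚ) ≠ 0 := by exact_mod_cast hB0.ne'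
      have e₁ : ∀ d ∈ D₁, (1 : ℚ) / ((N / d : ℕ) : ℚ) = (d : ℚ) / N := by
        intro d hd
        have hdq : (d : ℚ) ≠ 0 := by exact_mod_cast (hpos d (hdvd₁ d hd)).ne'
        rw [Nat.cast_div (hdvd₁ d hd) hdq]
        field_simp
      have e₂ : ∀ d ∈ D₂, (1 : ℚ) / ((B * (N / d) : ℕ) : ℚ) = (d : ℚ) / (B * N) := by
        intro d hd
        have hdq : (d : ℚ) ≠ 0 := by exact_mod_cast (hpos d (hdvd₂ d hd)).ne'
        rw [Nat.cast_mul, Nat.cast_div (hdvd₂ d hd) hdq]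
        field_simp
      rw [Finset.sum_congr rfl e₁, Finset.sum_congr rfl e₂, ← Finset.sum_div, ← Finset.sum_div,
        ← Nat.cast_sum, ← Nat.cast_sum, hs₁, hs₂]
      have h4 : (α : ℚ) * N = q * B + r := by exact_mod_cast hdiv
      field_simp
      linarith
    · intro d hd d' hd' h
      have h5 : N / d = N / d' := Nat.eq_of_mul_eq_mul_left hB0 h
      exact hinj d d' (hdvd₂ d hd) (hdvd₂ d' hd') h5
    · intro d hd d' hd' h
      exact hinj d d' (hdvd₁ d hd) (hdvd₁ d' hd') h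

/-- Head and tail combined. -/
theorem egyptian_combine {N X R0 T h a b m : ℕ} (hrep : RepB N X h) (hN0 : 0 < N)
    (hNX : N = X * R0) (hR : R0 ≤ T) (hT2 : 2 ≤ T) (hTX : T ^ 4 ≤ X) (hTm : T ≤ 2 ^ (2 ^ m))
    (ha : 1 ≤ a) (hab : a < b) (hbT : b ≤ T) :
    ∃ S : Finset ℕ, (∀ n ∈ S, 2 ≤ n) ∧ S.card ≤ m + 1 + 2 * h ∧
      ∑ n ∈ S, (1 : ℚ) / n = a / b := by
  classical
  obtain ⟨S₁, α, B, hc₁, hB0, h2, hlt, hαB, heq, hcase⟩ := greedy_head ha hab hT2 hTm
  rcases hcase with h0 | ⟨hα1, hαb, hBlo, hBhi⟩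
  · refine ⟨S₁, h2, by omega, ?_⟩
    rw [heq, h0]
    simp
  · have hX0 : 0 < X := by
      rcases Nat.eq_zero_or_pos X with h | h
      · rw [h] at hNX; simp at hNX; omega
      · exact h
    have hBX : B ≤ X := by
      have h1 : (b * T) ^ 2 ≤ (T * T) ^ 2 := Nat.pow_le_pow_left (Nat.mul_le_mul_right T hbT) 2
      have h3 : (T * T) ^ 2 = T ^ 4 := by ring
      omega
    have hq : α * N < B * X := by
      have h1 : α * R0 < B := by
        have h3 : α * R0 ≤ α * T := Nat.mul_le_mul_left α hR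
        have h4 : α * T < b * T := Nat.mul_lt_mul_of_pos_right hαb (by omega)
        omega
      calc α * N = (α * R0) * X := by rw [hNX]; ring
        _ < B * X := Nat.mul_lt_mul_of_pos_right h1 hX0
    obtain ⟨S₂, hS₂1, hc₂, hs₂⟩ := egyptian_of_repB hrep hN0 hB0 hBX hq
    -- every tail denominator `n` satisfies `B ≤ α n`
    have htail : ∀ n ∈ S₂, B ≤ α * n := by
      intro n hn
      have hn1 := hS₂1 n hn
      have h1 : (1 : ℚ) / n ≤ ∑ n ∈ S₂, (1 : ℚ) / n :=
        Finset.single_le_sum (f := fun n : ℕ => (1 : ℚ) / n) (fun i _ => by positivity) hn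
      rw [hs₂] at h1
      have hnq : (0 : ℚ) < n := by exact_mod_cast hn1
      have hBq : (0 : ℚ) < B := by exact_mod_cast hB0
      rw [div_le_div_iff₀ hnq hBq] at h1
      have h3 : (B : ℚ) ≤ α * n := by linarith
      exact_mod_cast h3
    have hdisj : Disjoint S₁ S₂ := by
      rw [Finset.disjoint_left]
      intro n h1 h3
      have := hlt n h1
      have := htail n h3
      omega
    refine ⟨S₁ ∪ S₂, ?_, ?_, ?_⟩
    · intro n hn
      rcases Finset.mem_union.1 hn with h | h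
      · exact h2 n h
      · have h1 := htail n h
        by_contra hcon
        have h3 : n ≤ 1 := by omega
        have h4 : α * n ≤ α * 1 := Nat.mul_le_mul_left α h3
        omega
    · calc (S₁ ∪ S₂).card ≤ S₁.card + S₂.card := Finset.card_union_le _ _
        _ ≤ m + 1 + 2 * h := by omega
    · rw [Finset.sum_union hdisj, hs₂, heq]

end Vale.Agent.P012
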