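import Vale.Agent.P012.ChainB
import Vale.Agent.P012.EgyptianB

namespace Vale.Agent.P012

open Finset

theorem four_mul_add_eight_le_two_pow (κ : ℕ) (hκ : 5 ≤ κ) : 4 * κ + 8 ≤ 2 ^ κ := by
  induction κ, hκ using Nat.le_induction with
  | base => norm_num
  | succ κ _ ih =>
    rw [pow_succ]
    omega

/-- Purely arithmetic form of the result. -/
theorem main_egyptianB : ∃ h0 : ℕ, ∀ k, 26 ≤ k → ∀ a b : ℕ, 1 ≤ a → a < b → b ≤ 2 ^ (2 ^ k ^ 2) →
    ∃ S : Finset ℕ, (∀ n ∈ S, 2 ≤ n) ∧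
      S.card ≤ h0 + 1200 * k ^ 2 + 16 * costB (k ^ 2) 0 (k ^ 2) ∧
      ∑ n ∈ S, (1 : ℚ) / n = a / b := by
  obtain ⟨h0, H⟩ := main_repB
  refine ⟨2 * h0 + 769, ?_⟩
  intro k hk a b ha hab hb
  obtain ⟨N, X, R0, hN0, hNX, hR0, hTX, hrep⟩ := H k hk
  set κ : ℕ := k ^ 2 with hκ
  have hκ5 : 5 ≤ κ := by
    have : 26 ^ 2 ≤ k ^ 2 := Nat.pow_le_pow_left hk 2
    omega
  set T : ℕ := 2 ^ ((4 * κ + 8) * 2 ^ κ) with hT
  have hpos : 1 ≤ (4 * κ + 8) * 2 ^ κ := Nat.mul_pos (by omega) (by positivity)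
  have hT2 : 2 ≤ T := by
    calc 2 = 2 ^ 1 := by norm_num
      _ ≤ T := Nat.pow_le_pow_right (by norm_num) hpos
  have hTm : T ≤ 2 ^ (2 ^ (2 * κ)) := by
    apply Nat.pow_le_pow_right (by norm_num)
    calc (4 * κ + 8) * 2 ^ κ ≤ 2 ^ κ * 2 ^ κ :=
          Nat.mul_le_mul_right _ (four_mul_add_eight_le_two_pow κ hκ5)
      _ = 2 ^ (2 * κ) := by rw [← pow_add]; congr 1; ring
  have hbT : b ≤ T := by
    refine hb.trans (Nat.pow_le_pow_right (by norm_num) ?_)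
    calc 2 ^ κ = 1 * 2 ^ κ := by ring
      _ ≤ (4 * κ + 8) * 2 ^ κ := Nat.mul_le_mul_right _ (by omega)
  obtain ⟨S, hS1, hS2, hS3⟩ :=
    egyptian_combine (m := 2 * κ) hrep hN0 hNX hR0 hT2 hTX hTm ha hab hbT
  refine ⟨S, hS1, hS2.trans ?_, hS3⟩
  omega

/-- Harmonic bound for the cost. -/
theorem costB_le (κ : ℕ) (hκ : 1 ≤ κ) :
    (costB κ 0 κ : ℝ) ≤ (4 * κ + 8) * (1 + Real.log κ) + κ := by
  have hsum : ∀ m : ℕ, (costB κ 0 m : ℝ) ≤ (4 * κ + 8) * ((harmonic m : ℚ) : ℝ) + m := by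
    intro m
    induction m with
    | zero => simp [costB]
    | succ m ih =>
      have e1 : costB κ 0 (m + 1) = costB κ 0 m + ((4 * κ + 8) / (m + 1) + 1) := by
        unfold costB
        rw [Finset.sum_Ioc_succ_top (Nat.zero_le m)]
      have e2 : ((harmonic (m + 1) : ℚ) : ℝ) = ((harmonic m : ℚ) : ℝ) + ((m : ℝ) + 1)⁻¹ := by
        rw [harmonic_succ]
        push_cast
        ring
      have e3 : (((4 * κ + 8) / (m + 1) : ℕ) : ℝ) ≤ (4 * κ + 8) * ((m : ℝ) + 1)⁻¹ := by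
        have := @Nat.cast_div_le ℝ _ _ _ (4 * κ + 8) (m + 1)
        push_cast at this
        rw [div_eq_mul_inv] at this
        exact this
      rw [e1, e2]
      push_cast
      linarith
  have h1 := hsum κ
  have h2 := harmonic_le_one_add_log κ
  have h3 : (0 : ℝ) ≤ 4 * κ + 8 := by positivity
  have h4 := mul_le_mul_of_nonneg_left h2 h3
  linarith

end Vale.Agent.P012
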