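import Vale.Agent.P012.Stage

namespace Vale.Agent.P012

open Finset

/-- Chebyshev-type lower bound, from `Chebyshev.two_pow_le_mul_lcmUpto` and
`Chebyshev.lcmUpto_eq_prod_pow_log` (or from `Chebyshev.pi_ge`). -/
theorem primeCounting_two_pow (u : ℕ) (hu : 1 ≤ u) :
    2 ^ u ≤ u * Nat.primeCounting (2 ^ u) + u + 1 := by
  have h1 := Chebyshev.two_pow_le_mul_lcmUpto (2 ^ u)
  rw [Nat.lcmUpto_eq_prod_pow_log] at h1
  have h2 : ∏ p ∈ Nat.primesLE (2 ^ u), p ^ p.log (2 ^ u) ≤ ∏ _p ∈ Nat.primesLE (2 ^ u), 2 ^ u :=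
    Finset.prod_le_prod' (fun p _ => Nat.pow_log_le_self p (by positivity))
  rw [Finset.prod_const, Nat.primesLE_card_eq_primeCounting] at h2
  have h3 : 2 ^ u + 1 ≤ 2 ^ (u + 1) := by
    have : 1 ≤ 2 ^ u := Nat.one_le_two_pow
    rw [pow_succ]
    omega
  have h4 : 2 ^ (2 ^ u) ≤ 2 ^ (u * Nat.primeCounting (2 ^ u) + u + 1) := by
    calc 2 ^ (2 ^ u) ≤ (2 ^ u + 1) * ∏ p ∈ Nat.primesLE (2 ^ u), p ^ p.log (2 ^ u) := h1
      _ ≤ 2 ^ (u + 1) * (2 ^ u) ^ Nat.primeCounting (2 ^ u) := Nat.mul_le_mul h3 h2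
      _ = 2 ^ (u * Nat.primeCounting (2 ^ u) + u + 1) := by
          rw [← pow_mul, ← pow_add]
          congr 1
          ring
  exact (Nat.pow_le_pow_iff_right (by norm_num)).mp h4

/-- Starting point: a product of `2 ^ k` distinct odd primes, each at most `2 ^ (2 k + 4)`. -/
theorem exists_base (k : ℕ) (hk : 1 ≤ k) :
    ∃ Q : ℕ, Odd Q ∧ 2 ^ (2 ^ k) ≤ Q.divisors.card ∧ 2 * Q ≤ 2 ^ (48 * k * 2 ^ k) := by
  set u := 2 * k + 4 with hu
  have h1 := primeCounting_two_pow u (by omega)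
  set P := (Nat.primesLE (2 ^ u)).erase 2 with hP
  have hPc : 2 ^ k ≤ P.card := by
    have h2 : (Nat.primesLE (2 ^ u)).card - 1 ≤ P.card := Finset.pred_card_le_card_erase
    rw [Nat.primesLE_card_eq_primeCounting] at h2
    have hπ : 2 ^ k + 1 ≤ Nat.primeCounting (2 ^ u) := by
      by_contra hcon
      push Not at hcon
      have h3 : u * Nat.primeCounting (2 ^ u) ≤ u * 2 ^ k := Nat.mul_le_mul_left _ (by omega)
      have e1 : 2 ^ u = 16 * (2 ^ k * 2 ^ k) := by rw [hu]; ring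
      have e2 : k + 1 ≤ 2 ^ k := Nat.lt_two_pow_self
      have h4 : 2 ^ u ≤ u * 2 ^ k + u + 1 := by linarith
      rw [e1, hu] at h4
      have h5 : (k + 1) * 2 ^ k ≤ 2 ^ k * 2 ^ k := Nat.mul_le_mul_right _ e2
      nlinarith
    omega
  obtain ⟨M, hMP, hMc⟩ := Finset.exists_subset_card_eq hPc
  have hM : ∀ p ∈ M, p.Prime ∧ p ≠ 2 ∧ p ≤ 2 ^ u := by
    intro p hp
    have h2 := hMP hp
    rw [hP, Finset.mem_erase] at h2
    exact ⟨Nat.prime_of_mem_primesLE h2.2, h2.1, Nat.le_of_mem_primesLE h2.2⟩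
  refine ⟨∏ p ∈ M, p, ?_, ?_, ?_⟩
  · apply Finset.prod_induction _ Odd (fun a b => Odd.mul) odd_one
    intro p hp
    exact (hM p hp).1.odd_of_ne_two (hM p hp).2.1
  · have h2 := card_divisors_mul_prod_primes 1 one_ne_zero M
      (fun p hp => ⟨(hM p hp).1, fun h => (hM p hp).1.one_lt.ne' (Nat.dvd_one.mp h)⟩)
    rw [one_mul, hMc] at h2
    rw [h2]
    simp
  · have h2 : ∏ p ∈ M, p ≤ ∏ _p ∈ M, 2 ^ u := Finset.prod_le_prod' (fun p hp => (hM p hp).2.2)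
    rw [Finset.prod_const, hMc, ← pow_mul] at h2
    calc 2 * ∏ p ∈ M, p ≤ 2 * 2 ^ (u * 2 ^ k) := Nat.mul_le_mul_left _ h2
      _ = 2 ^ (u * 2 ^ k + 1) := by rw [pow_succ]; ring
      _ ≤ 2 ^ (48 * k * 2 ^ k) := by
          apply Nat.pow_le_pow_right (by norm_num)
          have e2 : 1 ≤ 2 ^ k := Nat.one_le_two_pow
          rw [hu]
          nlinarith

/-- `i` stages with fixed parameters. -/
theorem stages {e ℓ s t w L : ℕ} (he : 4 ≤ e) (hs : 1 ≤ s) (hw : 7 * t * s ≤ w)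
    (H3 : 512 * s ≤ 2 ^ (4 * t))
    (H4 : ℓ + s + s * ℓ * 2 ^ (7 * t) ≤ Nat.primeCounting (2 ^ (8 * t))) (i : ℕ)
    (hL : L + i * (8 * t * s) ≤ ℓ) {Q h : ℕ} (hQ : Odd Q) (hτ : 2 ^ w ≤ Q.divisors.card)
    (hsz : 2 * Q ≤ 2 ^ L) (hrep : Rep (2 ^ e * Q ^ 2) h) :
    ∃ Q' : ℕ, Odd Q' ∧ 2 ^ (w + i * s) ≤ Q'.divisors.card ∧ 2 * Q' ≤ 2 ^ (L + i * (8 * t * s)) ∧
      Rep (2 ^ e * Q' ^ 2) (h + 8 * i) := by
  induction i with
  | zero => exact ⟨Q, hQ, by simpa using hτ, by simpa using hsz, by simpa using hrep⟩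
  | succ i ih =>
    have hL' : L + i * (8 * t * s) ≤ ℓ := by
      have : i * (8 * t * s) ≤ (i + 1) * (8 * t * s) := Nat.mul_le_mul_right _ (by omega)
      omega
    obtain ⟨Q1, hQ1, hτ1, hsz1, hrep1⟩ := ih hL'
    have H1 : 2 * Q1 ≤ 2 ^ ℓ := hsz1.trans (Nat.pow_le_pow_right (by norm_num) hL')
    have H2 : 2 ^ (7 * t * s) ≤ Q1.divisors.card :=
      (Nat.pow_le_pow_right (by norm_num) (by omega)).trans hτ1
    obtain ⟨μ, h1, h2, h3, h4⟩ := stage he hQ1 hrep1 hs H1 H2 H3 H4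
    refine ⟨Q1 * μ, h1, ?_, ?_, ?_⟩
    · rw [h3]
      calc 2 ^ (w + (i + 1) * s) = 2 ^ s * 2 ^ (w + i * s) := by
            rw [← pow_add]
            congr 1
            ring
        _ ≤ 2 ^ s * Q1.divisors.card := Nat.mul_le_mul_left _ hτ1
    · calc 2 * (Q1 * μ) = (2 * Q1) * μ := by ring
        _ ≤ 2 ^ (L + i * (8 * t * s)) * 2 ^ (8 * t * s) := Nat.mul_le_mul hsz1 h2
        _ = 2 ^ (L + (i + 1) * (8 * t * s)) := by
            rw [← pow_add]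
            congr 1
            ring
    · have : h + 8 * (i + 1) = h + 8 * i + 8 := by ring
      rw [this]
      exact h4

theorem exists_pow_two_between (k : ℕ) (hk : 1 ≤ k) : ∃ r, 3 * k ≤ 2 ^ r ∧ 2 ^ r < 6 * k := by
  refine ⟨Nat.clog 2 (3 * k), Nat.le_pow_clog (by norm_num) _, ?_⟩
  have h1 := Nat.pow_pred_clog_lt_self (b := 2) (by norm_num) (x := 3 * k) (by omega)
  have h2 : 0 < Nat.clog 2 (3 * k) := Nat.clog_pos (by norm_num) (by omega)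
  obtain ⟨c, hc⟩ : ∃ c, Nat.clog 2 (3 * k) = c + 1 := ⟨Nat.clog 2 (3 * k) - 1, by omega⟩
  rw [hc] at h1 ⊢
  simp only [Nat.pred_eq_sub_one, Nat.add_sub_cancel] at h1
  rw [pow_succ]
  omega

theorem two_pow_large (k : ℕ) (hk : 12 ≤ k) : 96 * (k + 1) + 1 ≤ 2 ^ k := by
  induction k, hk using Nat.le_induction with
  | base => norm_num
  | succ k _ ih =>
    rw [pow_succ]
    omega

/-- One epoch: the exponent `2 ^ k` doubles at the cost of at most `384 k` more summands.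
Parameters: `t = 2 ^ r` with `3 k ≤ t < 6 k`, `s = 2 ^ k / (8 t)`, `i = 8 t` stages,
`ℓ = 48 (k + 1) 2 ^ (k + 1)`. -/
theorem epoch {e k Q h : ℕ} (he : 4 ≤ e) (hk : 12 ≤ k) (hQ : Odd Q)
    (hτ : 2 ^ (2 ^ k) ≤ Q.divisors.card) (hsz : 2 * Q ≤ 2 ^ (48 * k * 2 ^ k))
    (hrep : Rep (2 ^ e * Q ^ 2) h) :
    ∃ Q' : ℕ, Odd Q' ∧ 2 ^ (2 ^ (k + 1)) ≤ Q'.divisors.card ∧
      2 * Q' ≤ 2 ^ (48 * (k + 1) * 2 ^ (k + 1)) ∧ Rep (2 ^ e * Q' ^ 2) (h + 384 * k) := by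
  obtain ⟨r, hr1, hr2⟩ := exists_pow_two_between k (by omega)
  have hX := two_pow_large k hk
  have hrk : r + 3 < k := by
    have h1 : 2 ^ (r + 3) < 2 ^ k := by
      rw [pow_add]
      omega
    exact (Nat.pow_lt_pow_iff_right (by norm_num)).mp h1
  set t := 2 ^ r with ht
  set s := 2 ^ (k - r - 3) with hs
  set X := 2 ^ k with hXdef
  have h8ts : 8 * t * s = X := by
    rw [ht, hs, hXdef]
    have : (8 : ℕ) = 2 ^ 3 := by norm_num
    rw [this, ← pow_add, ← pow_add]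
    congr 1
    omega
  have hs1 : 1 ≤ s := Nat.one_le_two_pow
  set ℓ := 48 * (k + 1) * 2 ^ (k + 1) with hℓ
  have hℓX : ℓ = 96 * (k + 1) * X := by
    rw [hℓ, hXdef, pow_succ]
    ring
  have hw : 7 * t * s ≤ X := by
    have : 7 * t * s ≤ 8 * t * s := by
      apply Nat.mul_le_mul_right
      apply Nat.mul_le_mul_right
      norm_num
    omega
  have H3 : 512 * s ≤ 2 ^ (4 * t) := by
    have : (512 : ℕ) = 2 ^ 9 := by norm_num
    rw [this, hs, ← pow_add]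
    apply Nat.pow_le_pow_right (by norm_num)
    omega
  have H4 : ℓ + s + s * ℓ * 2 ^ (7 * t) ≤ Nat.primeCounting (2 ^ (8 * t)) := by
    have hpc := primeCounting_two_pow (8 * t) (by omega)
    set Y := 2 ^ (7 * t) with hY
    have h8 : 2 ^ (8 * t) = 2 ^ t * Y := by
      rw [hY, ← pow_add]
      congr 1
      ring
    have hX3 : X ^ 3 ≤ 2 ^ t := by
      rw [hXdef, ← pow_mul]
      apply Nat.pow_le_pow_right (by norm_num)
      omega
    have hX4 : X ^ 4 ≤ Y := by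
      rw [hXdef, hY, ← pow_mul]
      apply Nat.pow_le_pow_right (by norm_num)
      omega
    have hA : X * ℓ + 1 ≤ 2 ^ t := by
      have h1 : (96 * (k + 1) + 1) * X ^ 2 ≤ X * X ^ 2 := Nat.mul_le_mul_right _ hX
      have h2 : 1 ≤ X ^ 2 := Nat.one_le_pow _ _ (by omega)
      calc X * ℓ + 1 = 96 * (k + 1) * X ^ 2 + 1 := by rw [hℓX]; ring
        _ ≤ (96 * (k + 1) + 1) * X ^ 2 := by nlinarith
        _ ≤ X * X ^ 2 := h1
        _ = X ^ 3 := by ring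
        _ ≤ 2 ^ t := hX3
    have hB : 8 * t * ℓ + X + 8 * t + 1 ≤ Y := by
      have h1 : ℓ ≤ X * X := by
        rw [hℓX]
        apply Nat.mul_le_mul_right
        omega
      have h2 : 8 * t ≤ X := by omega
      have h3 : 8 * t * ℓ ≤ X * (X * X) := Nat.mul_le_mul h2 h1
      have h4 : 4 ≤ X := by omega
      have h5 : 4 * (X * (X * X)) ≤ X * (X * (X * X)) := Nat.mul_le_mul_right _ h4
      have h6 : X ≤ X * (X * X) := by nlinarith
      calc 8 * t * ℓ + X + 8 * t + 1 ≤ 4 * (X * (X * X)) := by omega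
        _ ≤ X * (X * (X * X)) := h5
        _ = X ^ 4 := by ring
        _ ≤ Y := hX4
    have hC : 8 * t * (ℓ + s + s * ℓ * Y) + 8 * t + 1 ≤ 2 ^ (8 * t) := by
      calc 8 * t * (ℓ + s + s * ℓ * Y) + 8 * t + 1
          = (8 * t * ℓ + 8 * t * s + 8 * t + 1) + (8 * t * s) * ℓ * Y := by ring
        _ = (8 * t * ℓ + X + 8 * t + 1) + X * ℓ * Y := by rw [h8ts]
        _ ≤ Y + X * ℓ * Y := Nat.add_le_add_right hB _
        _ = (X * ℓ + 1) * Y := by ring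
        _ ≤ 2 ^ t * Y := Nat.mul_le_mul_right _ hA
        _ = 2 ^ (8 * t) := h8.symm
    have hD : 8 * t * (ℓ + s + s * ℓ * Y) ≤ 8 * t * Nat.primeCounting (2 ^ (8 * t)) := by
      omega
    exact Nat.le_of_mul_le_mul_left hD (by omega)
  have hL : 48 * k * X + (8 * t) * (8 * t * s) ≤ ℓ := by
    rw [h8ts, hℓX]
    have : 8 * t * X ≤ 48 * k * X := Nat.mul_le_mul_right _ (by omega)
    nlinarith
  obtain ⟨Q', h1, h2, h3, h4⟩ := stages he hs1 hw H3 H4 (8 * t) hL hQ hτ hsz hrep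
  refine ⟨Q', h1, ?_, ?_, ?_⟩
  · have : 2 ^ (k + 1) = X + 8 * t * s := by
      rw [h8ts, hXdef, pow_succ]
      ring
    rw [this]
    exact h2
  · exact h3.trans (Nat.pow_le_pow_right (by norm_num) hL)
  · exact h4.mono (by omega)

theorem main_rep : ∃ h0 : ℕ, ∀ k, 12 ≤ k → ∃ N : ℕ, 2 ^ (2 ^ k) ≤ N ∧ Rep N (h0 + 384 * k ^ 2) := by
  obtain ⟨Q0, hQ0, hτ0, hsz0⟩ := exists_base 12 (by norm_num)
  set e := Q0 ^ 2 + 4 with he
  refine ⟨2 * e, ?_⟩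
  have key : ∀ k, 12 ≤ k → ∃ Q : ℕ, Odd Q ∧ 2 ^ (2 ^ k) ≤ Q.divisors.card ∧
      2 * Q ≤ 2 ^ (48 * k * 2 ^ k) ∧ Rep (2 ^ e * Q ^ 2) (2 * e + 384 * k ^ 2) := by
    intro k hk
    induction k, hk using Nat.le_induction with
    | base =>
      refine ⟨Q0, hQ0, hτ0, hsz0, ?_⟩
      have hlt : Q0 ^ 2 < 2 ^ e := by
        calc Q0 ^ 2 < e := by omega
          _ < 2 ^ e := Nat.lt_two_pow_self
      exact (rep_base hQ0.pow hlt).mono (by omega)
    | succ k hk ih =>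
      obtain ⟨Q, h1, h2, h3, h4⟩ := ih
      obtain ⟨Q', g1, g2, g3, g4⟩ := epoch (by omega) hk h1 h2 h3 h4
      exact ⟨Q', g1, g2, g3, g4.mono (by nlinarith)⟩
  intro k hk
  obtain ⟨Q, h1, h2, h3, h4⟩ := key k hk
  refine ⟨2 ^ e * Q ^ 2, ?_, h4⟩
  have hQpos : 0 < Q := h1.pos
  calc 2 ^ (2 ^ k) ≤ Q.divisors.card := h2
    _ ≤ Q := Nat.card_divisors_le_self Q
    _ ≤ 2 ^ e * Q ^ 2 := by
        have : 1 ≤ 2 ^ e := Nat.one_le_two_pow
        nlinarith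

end Vale.Agent.P012
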