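import Vale.Agent.P012.StageB
import Vale.Agent.P012.Epoch

namespace Vale.Agent.P012

open Finset

/-- The state reached by the old construction (this is the `key` statement inside `main_rep`). -/
theorem main_state : ∃ e h0 : ℕ, 4 ≤ e ∧ ∀ k, 12 ≤ k → ∃ Q : ℕ, Odd Q ∧
    2 ^ (2 ^ k) ≤ Q.divisors.card ∧ 2 * Q ≤ 2 ^ (48 * k * 2 ^ k) ∧
      Rep (2 ^ e * Q ^ 2) (h0 + 384 * k ^ 2) := by
  obtain ⟨Q0, hQ0, hτ0, hsz0⟩ := exists_base 12 (by norm_num)
  set e := Q0 ^ 2 + 4 with he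
  refine ⟨e, 2 * e, by omega, ?_⟩
  intro k hk
  induction k, hk using Nat.le_induction with
  | base =>
    refine ⟨Q0, hQ0, hτ0, hsz0, ?_⟩
    have hlt : Q0 ^ 2 < 2 ^ e := by
      calc Q0 ^ 2 < e := by omega
        _ < 2 ^ e := Nat.lt_two_pow_self
    exact (rep_base hQ0.pow hlt).mono (by omega)
  | succ k hk ih =>
    obtain ⟨Q, h1, h2, h3, h4⟩ := ih
    obtain ⟨Q', g1, g2, g3, g4⟩ := epoch (by omega) hk h1 h2 h3 h4
    exact ⟨Q', g1, g2, g3, g4.mono (by nlinarith)⟩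

/-- The reservoir: `2 ^ κ` distinct odd primes, each at most `2 ^ (2 κ + 4)`
(this is inside the proof of `exists_base`). -/
theorem exists_reservoir (κ : ℕ) (hκ : 1 ≤ κ) :
    ∃ R : Finset ℕ, R.card = 2 ^ κ ∧ ∀ p ∈ R, p.Prime ∧ p ≠ 2 ∧ p ≤ 2 ^ (2 * κ + 4) := by
  set u := 2 * κ + 4 with hu
  have h1 := primeCounting_two_pow u (by omega)
  set P := (Nat.primesLE (2 ^ u)).erase 2 with hP
  have hPc : 2 ^ κ ≤ P.card := by
    have h2 : (Nat.primesLE (2 ^ u)).card - 1 ≤ P.card := Finset.pred_card_le_card_erase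
    rw [Nat.primesLE_card_eq_primeCounting] at h2
    have hπ : 2 ^ κ + 1 ≤ Nat.primeCounting (2 ^ u) := by
      by_contra hcon
      push Not at hcon
      have h3 : u * Nat.primeCounting (2 ^ u) ≤ u * 2 ^ κ := Nat.mul_le_mul_left _ (by omega)
      have e1 : 2 ^ u = 16 * (2 ^ κ * 2 ^ κ) := by rw [hu]; ring
      have e2 : κ + 1 ≤ 2 ^ κ := Nat.lt_two_pow_self
      have h4 : 2 ^ u ≤ u * 2 ^ κ + u + 1 := by linarith
      rw [e1, hu] at h4
      have h5 : (κ + 1) * 2 ^ κ ≤ 2 ^ κ * 2 ^ κ := Nat.mul_le_mul_right _ e2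
      nlinarith
    omega
  obtain ⟨M, hMP, hMc⟩ := Finset.exists_subset_card_eq hPc
  refine ⟨M, hMc, ?_⟩
  intro p hp
  have h2 := hMP hp
  rw [hP, Finset.mem_erase] at h2
  exact ⟨Nat.prime_of_mem_primesLE h2.2, h2.1, Nat.le_of_mem_primesLE h2.2⟩

private theorem pow_le_choose_mul (q : ℕ) (hq : 1 ≤ q) (k : ℕ) : q ^ k ≤ (q * k).choose k := by
  induction k with
  | zero => simp
  | succ k ih =>
    obtain ⟨n, hn⟩ : ∃ n, q * (k + 1) = n + 1 := ⟨q * (k + 1) - 1, by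
      have : 1 ≤ q * (k + 1) := Nat.mul_pos hq (by omega)
      omega⟩
    have h1 := Nat.add_one_mul_choose_eq n k
    have hle : q * k ≤ n := by
      have : q * (k + 1) = q * k + q := by ring
      omega
    have h2 : (q * k).choose k ≤ n.choose k := Nat.choose_le_choose k hle
    rw [hn]
    have h3 : (q * q ^ k) * (k + 1) ≤ (n + 1).choose (k + 1) * (k + 1) := by
      rw [← h1, ← hn]
      calc q * q ^ k * (k + 1) = q * (k + 1) * q ^ k := by ring
        _ ≤ q * (k + 1) * n.choose k := Nat.mul_le_mul_left _ (ih.trans h2)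
    have h4 := Nat.le_of_mul_le_mul_right h3 (by omega)
    calc q ^ (k + 1) = q * q ^ k := by ring
      _ ≤ _ := h4

/-- Lower bound for binomial coefficients. -/
theorem two_pow_le_choose (κ σ : ℕ) (hσ : σ ≤ κ) :
    2 ^ (σ * 2 ^ (κ - σ)) ≤ (2 ^ κ).choose (2 ^ (κ - σ)) := by
  have h := pow_le_choose_mul (2 ^ σ) Nat.one_le_two_pow (2 ^ (κ - σ))
  rw [← pow_mul, ← pow_add] at h
  have e : σ + (κ - σ) = κ := by omega
  rwa [e] at h

/-- The set `A` of all products of `2 ^ (κ - σ)` primes of the reservoir. -/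
theorem exists_A (R : Finset ℕ) (hR : ∀ p ∈ R, p.Prime) (κ σ u : ℕ) (hσ : σ ≤ κ)
    (hc : R.card = 2 ^ κ) (hu : ∀ p ∈ R, p ≤ 2 ^ u) :
    ∃ A : Finset ℕ, A ⊆ (∏ p ∈ R, p).divisors ∧ (∀ a ∈ A, a ≤ 2 ^ (u * 2 ^ (κ - σ))) ∧
      2 ^ (σ * 2 ^ (κ - σ)) ≤ A.card := by
  classical
  refine ⟨(Finset.powersetCard (2 ^ (κ - σ)) R).image (fun I => ∏ p ∈ I, p), ?_, ?_, ?_⟩
  · intro a ha
    rw [Finset.mem_image] at ha
    obtain ⟨I, hI, rfl⟩ := ha
    rw [Finset.mem_powersetCard] at hI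
    rw [Nat.mem_divisors]
    refine ⟨Finset.prod_dvd_prod_of_subset _ _ _ hI.1, ?_⟩
    exact Finset.prod_ne_zero_iff.mpr (fun p hp => (hR p hp).ne_zero)
  · intro a ha
    rw [Finset.mem_image] at ha
    obtain ⟨I, hI, rfl⟩ := ha
    rw [Finset.mem_powersetCard] at hI
    calc ∏ p ∈ I, p ≤ ∏ _p ∈ I, 2 ^ u := Finset.prod_le_prod' (fun p hp => hu p (hI.1 hp))
      _ = 2 ^ (u * 2 ^ (κ - σ)) := by rw [Finset.prod_const, hI.2, ← pow_mul]
  · rw [Finset.card_image_of_injOn, Finset.card_powersetCard, hc]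
    · exact two_pow_le_choose κ σ hσ
    · intro I hI J hJ hIJ
      have hI' := (Finset.mem_powersetCard.mp hI).1
      have hJ' := (Finset.mem_powersetCard.mp hJ).1
      have e1 := Nat.primeFactors_prod (s := I) (fun p hp => hR p (hI' hp))
      have e2 := Nat.primeFactors_prod (s := J) (fun p hp => hR p (hJ' hp))
      simp only at hIJ
      rw [← e1, ← e2, hIJ]

end Vale.Agent.P012
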