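import Mathlib

namespace Vale.Agent.P012

open Finset

/-- Bilinear Cauchy-Schwarz bound in a finite commutative ring with a primitive additive character.
`Z` is any set of elements annihilated by `ξ`. -/
theorem bilinear_bound {R : Type*} [CommRing R] [Fintype R] [DecidableEq R]
    (ψ : AddChar R ℂ) (hψ : ψ.IsPrimitive) (A : Finset ℕ) (ξ : R) (Z : Finset R)
    (hZ : ∀ z ∈ Z, ξ * z = 0) :
    (Z.card : ℝ) * ‖∑ a ∈ A, ∑ b ∈ A, ψ (ξ * (a : R) * (b : R))‖ ^ 2 ≤
      (Fintype.card R : ℝ) *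
        (((A ×ˢ A).filter (fun x => ξ * ((x.1 : R) - (x.2 : R)) = 0)).card : ℝ) ^ 2 := by
  classical
  set E : ℕ := ((A ×ˢ A).filter (fun x => ξ * ((x.1 : R) - (x.2 : R)) = 0)).card with hE
  set F : R → ℂ := fun u => ∑ b ∈ A, ψ (ξ * u * (b : R)) with hF
  set S : ℂ := ∑ a ∈ A, ∑ b ∈ A, ψ (ξ * (a : R) * (b : R)) with hS
  have hS' : S = ∑ a ∈ A, F (a : R) := rfl
  have hFz : ∀ (u z : R), z ∈ Z → F (u + z) = F u := by
    intro u z hz
    apply Finset.sum_congr rfl
    intro b _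
    congr 1
    have h0 := hZ z hz
    calc ξ * (u + z) * (b : R) = ξ * u * b + (ξ * z) * b := by ring
      _ = ξ * u * b := by rw [h0]; ring
  set g : ℕ × R → R := fun p => (p.1 : R) + p.2 with hg
  set μ : R → ℕ := fun u => ((A ×ˢ Z).filter (fun p => g p = u)).card with hμ
  -- first identity
  have h1 : (Z.card : ℂ) * S = ∑ u : R, (μ u : ℂ) * F u := by
    have h2 : ∑ p ∈ A ×ˢ Z, F (g p) = (Z.card : ℂ) * S := by
      rw [Finset.sum_product, hS', Finset.mul_sum]
      apply Finset.sum_congr rfl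
      intro a _
      rw [Finset.sum_congr rfl (fun z hz => hFz (a : R) z hz), Finset.sum_const, nsmul_eq_mul]
    rw [← h2, ← Finset.sum_fiberwise (A ×ˢ Z) g (fun p => F (g p))]
    apply Finset.sum_congr rfl
    intro u _
    rw [Finset.sum_congr rfl (fun p hp => by rw [(Finset.mem_filter.1 hp).2]), Finset.sum_const,
      nsmul_eq_mul]
  -- second moment of μ
  set e : ℕ → ℕ := fun a => (A.filter (fun a' : ℕ => ξ * ((a : R) - (a' : R)) = 0)).card with he
  have hEe : E = ∑ a ∈ A, e a := by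
    rw [hE, Finset.card_filter, Finset.sum_product]
    apply Finset.sum_congr rfl
    intro a _
    simp only [he]
    rw [Finset.card_filter]
  have hμe : ∀ a ∈ A, ∀ z ∈ Z, μ ((a : R) + z) ≤ e a := by
    intro a _ z hz
    apply Finset.card_le_card_of_injOn (fun p : ℕ × R => p.1)
    · intro p hp
      simp only [Finset.coe_filter, Finset.mem_product, Set.mem_ofPred_eq] at hp
      obtain ⟨⟨hpA, hpZ⟩, hgp⟩ := hp
      simp only [Finset.coe_filter, Set.mem_ofPred_eq]
      refine ⟨hpA, ?_⟩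
      have h3 : (a : R) - (p.1 : R) = p.2 - z := by
        have : (p.1 : R) + p.2 = (a : R) + z := hgp
        linear_combination -this
      rw [h3, mul_sub, hZ _ hpZ, hZ _ hz, sub_zero]
    · intro p hp p' hp' hpp
      simp only [Finset.coe_filter, Finset.mem_product, Set.mem_ofPred_eq] at hp hp'
      have h4 : (p.1 : R) + p.2 = (a : R) + z := hp.2
      have h5 : (p'.1 : R) + p'.2 = (a : R) + z := hp'.2
      have h6 : p.1 = p'.1 := hpp
      apply Prod.ext h6
      rw [h6] at h4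
      have : (p'.1 : R) + p.2 = (p'.1 : R) + p'.2 := h4.trans h5.symm
      exact add_left_cancel this
  have h7 : ∑ u : R, (μ u) ^ 2 ≤ Z.card * E := by
    have h8 : ∑ u : R, (μ u) ^ 2 = ∑ p ∈ A ×ˢ Z, μ (g p) := by
      rw [← Finset.sum_fiberwise (A ×ˢ Z) g (fun p => μ (g p))]
      apply Finset.sum_congr rfl
      intro u _
      rw [Finset.sum_congr rfl (fun p hp => by rw [(Finset.mem_filter.1 hp).2]), Finset.sum_const,
        smul_eq_mul, sq]
    rw [h8, Finset.sum_product, hEe, Finset.mul_sum]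
    apply Finset.sum_le_sum
    intro a ha
    calc ∑ z ∈ Z, μ (g (a, z)) ≤ ∑ _z ∈ Z, e a := Finset.sum_le_sum (fun z hz => hμe a ha z hz)
      _ = Z.card * e a := by rw [Finset.sum_const, smul_eq_mul]
  -- second moment of F
  have h9 : ∑ u : R, ‖F u‖ ^ 2 = (Fintype.card R : ℝ) * E := by
    have h10 : ((∑ u : R, ‖F u‖ ^ 2 : ℝ) : ℂ) = ((Fintype.card R : ℝ) * E : ℝ) := by
      push_cast
      have h11 : ∀ u : R, ((‖F u‖ : ℂ)) ^ 2 =
          ∑ x ∈ A ×ˢ A, ψ (u * (ξ * ((x.1 : R) - (x.2 : R)))) := by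
        intro u
        rw [← Complex.mul_conj', hF]
        simp only [map_sum]
        rw [Finset.sum_mul_sum, Finset.sum_product]
        apply Finset.sum_congr rfl
        intro b _
        apply Finset.sum_congr rfl
        intro b' _
        rw [← AddChar.map_neg_eq_conj, ← AddChar.map_add_eq_mul]
        congr 1
        ring
      rw [Finset.sum_congr rfl (fun u _ => h11 u), Finset.sum_comm]
      rw [Finset.sum_congr rfl (fun x _ => AddChar.sum_mulShift _ hψ)]
      rw [hE, Finset.card_filter]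
      push_cast
      rw [Finset.mul_sum]
      apply Finset.sum_congr rfl
      intro x _
      split_ifs <;> simp
    exact_mod_cast h10
  -- Cauchy-Schwarz
  have h12 : ((Z.card : ℝ) * ‖S‖) ^ 2 ≤ ((Z.card : ℝ) * E) * ((Fintype.card R : ℝ) * E) := by
    have h13 : (Z.card : ℝ) * ‖S‖ = ‖∑ u : R, (μ u : ℂ) * F u‖ := by
      rw [← h1, norm_mul]
      simp
    have h14 : ‖∑ u : R, (μ u : ℂ) * F u‖ ≤ ∑ u : R, (μ u : ℝ) * ‖F u‖ := by
      refine (norm_sum_le _ _).trans (le_of_eq ?_)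
      apply Finset.sum_congr rfl
      intro u _
      rw [norm_mul]
      simp
    have h15 : (∑ u : R, (μ u : ℝ) * ‖F u‖) ^ 2 ≤
        (∑ u : R, (μ u : ℝ) ^ 2) * ∑ u : R, ‖F u‖ ^ 2 :=
      Finset.sum_mul_sq_le_sq_mul_sq _ _ _
    have h16 : (∑ u : R, (μ u : ℝ) ^ 2) ≤ (Z.card : ℝ) * E := by exact_mod_cast h7
    calc ((Z.card : ℝ) * ‖S‖) ^ 2 ≤ (∑ u : R, (μ u : ℝ) * ‖F u‖) ^ 2 := by
          rw [h13]
          exact pow_le_pow_left₀ (norm_nonneg _) h14 2
      _ ≤ (∑ u : R, (μ u : ℝ) ^ 2) * ∑ u : R, ‖F u‖ ^ 2 := h15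
      _ ≤ ((Z.card : ℝ) * E) * ((Fintype.card R : ℝ) * E) := by
          rw [h9]
          exact mul_le_mul_of_nonneg_right h16 (by positivity)
  rcases Nat.eq_zero_or_pos Z.card with hz | hz
  · rw [hz]
    simp only [Nat.cast_zero, zero_mul]
    positivity
  · have hzr : (0 : ℝ) < Z.card := by exact_mod_cast hz
    have h17 : (Z.card : ℝ) * ((Z.card : ℝ) * ‖S‖ ^ 2) ≤
        (Z.card : ℝ) * ((Fintype.card R : ℝ) * (E : ℝ) ^ 2) := by
      calc (Z.card : ℝ) * ((Z.card : ℝ) * ‖S‖ ^ 2) = ((Z.card : ℝ) * ‖S‖) ^ 2 := by ring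
        _ ≤ ((Z.card : ℝ) * E) * ((Fintype.card R : ℝ) * E) := h12
        _ = (Z.card : ℝ) * ((Fintype.card R : ℝ) * (E : ℝ) ^ 2) := by ring
    exact le_of_mul_le_mul_left h17 hzr

end Vale.Agent.P012
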