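import Vale.Agent.P012.Epoch

namespace Vale.Agent.P012

open Finset

private theorem aux_quartic (k : ℕ) (hk : 26 ≤ k) : (2 * k ^ 2 + 4) * (48 * k ^ 2) ≤ 2 ^ k := by
  induction k, hk using Nat.le_induction with
  | base => norm_num
  | succ k hk ih =>
    have h : 5 * (k + 1) ^ 2 ≤ 7 * k ^ 2 := by nlinarith
    have h2 := Nat.mul_le_mul h h
    rw [pow_succ 2 k]
    set a := (k + 1) ^ 2 with ha
    set b := k ^ 2 with hb
    nlinarith

private theorem aux_cubic (n : ℕ) (hn : 40 ≤ n) : 4000 * n ^ 3 ≤ 2 ^ n := by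
  induction n, hn using Nat.le_induction with
  | base => norm_num
  | succ n hn ih =>
    have h : (n + 1) ^ 3 ≤ 2 * n ^ 3 := by nlinarith [Nat.mul_le_mul hn hn]
    rw [pow_succ 2 n]
    omega

/-- Numerical conditions for `κ = k ^ 2`, `k ≥ 26`. -/
theorem paramsB (k : ℕ) (hk : 26 ≤ k) : ∃ r : ℕ, r + 4 ≤ k ^ 2 ∧
    (2 * k ^ 2 + 4) * 2 ^ (r + 3) ≤ 2 ^ k ∧
    512 * (k ^ 2 * 2 ^ k ^ 2) ≤ 2 ^ (4 * 2 ^ r) ∧
    2 ^ (4 * 2 ^ r) + ((19 * k ^ 2 + 36) * 2 ^ k ^ 2 + 48 * k * 2 ^ k) + k ^ 2 * 2 ^ k ^ 2 +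
      k ^ 2 * 2 ^ k ^ 2 * ((19 * k ^ 2 + 36) * 2 ^ k ^ 2 + 48 * k * 2 ^ k) * 2 ^ (7 * 2 ^ r) ≤
      Nat.primeCounting (2 ^ (8 * 2 ^ r)) := by
  have hκ676 : 676 ≤ k ^ 2 := by nlinarith
  have hkκ : k ≤ k ^ 2 := by nlinarith
  have hquart := aux_quartic k hk
  set κ := k ^ 2 with hκ
  obtain ⟨r, hr1, hr2⟩ := exists_pow_two_between κ (by omega)
  have hcub := aux_cubic κ (by omega)
  have h2k : 2 ^ k ≤ 2 ^ κ := Nat.pow_le_pow_right (by norm_num) hkκ
  set t := 2 ^ r with ht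
  set X := 2 ^ κ with hX
  have hκ3 : κ ≤ κ ^ 3 := by
    calc κ = κ ^ 1 := (pow_one κ).symm
      _ ≤ κ ^ 3 := Nat.pow_le_pow_right (by omega) (by norm_num)
  have hκX : 4000 * κ ≤ X := by omega
  refine ⟨r, ?_, ?_, ?_, ?_⟩
  · have h1 : 2 ^ (r + 4) < 2 ^ κ := by
      rw [pow_add, ← ht, ← hX]
      omega
    exact ((Nat.pow_lt_pow_iff_right (by norm_num)).mp h1).le
  · rw [pow_add, ← ht]
    calc (2 * κ + 4) * (t * 2 ^ 3) ≤ (2 * κ + 4) * (48 * κ) :=
          Nat.mul_le_mul_left _ (by omega)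
      _ ≤ 2 ^ k := hquart
  · have h1 : 512 * κ ≤ X := by omega
    calc 512 * (κ * X) = (512 * κ) * X := by ring
      _ ≤ X * X := Nat.mul_le_mul_right _ h1
      _ = 2 ^ (κ + κ) := by rw [hX, ← pow_add]
      _ ≤ 2 ^ (4 * t) := Nat.pow_le_pow_right (by norm_num) (by omega)
  · set ℓ := (19 * κ + 36) * X + 48 * k * 2 ^ k with hℓ
    have hpc := primeCounting_two_pow (8 * t) (by omega)
    set Y := 2 ^ (7 * t) with hY
    set V := 2 ^ (4 * t) with hV
    have h8 : 2 ^ (8 * t) = 2 ^ t * Y := by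
      rw [hY, ← pow_add]
      congr 1
      ring
    have h7 : Y = 2 ^ (3 * t) * V := by
      rw [hY, hV, ← pow_add]
      congr 1
      ring
    have hX3 : X ^ 3 ≤ 2 ^ t := by
      rw [hX, ← pow_mul]
      exact Nat.pow_le_pow_right (by norm_num) (by omega)
    have hX3V : X ^ 3 ≤ V := by
      rw [hX, hV, ← pow_mul]
      exact Nat.pow_le_pow_right (by norm_num) (by omega)
    have hX2' : X ^ 2 ≤ 2 ^ (3 * t) := by
      rw [hX, ← pow_mul]
      exact Nat.pow_le_pow_right (by norm_num) (by omega)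
    have hℓle : ℓ ≤ 68 * κ * X := by
      have h1 : 48 * k * 2 ^ k ≤ 48 * κ * X :=
        Nat.mul_le_mul (Nat.mul_le_mul_left _ hkκ) h2k
      have h2 : (19 * κ + 36) * X ≤ 20 * κ * X := Nat.mul_le_mul_right _ (by omega)
      calc ℓ ≤ 20 * κ * X + 48 * κ * X := Nat.add_le_add h2 h1
        _ = 68 * κ * X := by ring
    have hW : 8 * t ≤ 48 * κ := by omega
    have hX1 : 1 ≤ X := Nat.one_le_two_pow
    have hA : 8 * t * (κ * X * ℓ) + 1 ≤ 2 ^ t := by
      have h1 : 8 * t * (κ * X * ℓ) ≤ 48 * κ * (κ * X * (68 * κ * X)) :=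
        Nat.mul_le_mul hW (Nat.mul_le_mul_left _ hℓle)
      have h2 : 48 * κ * (κ * X * (68 * κ * X)) = (3264 * κ ^ 3) * X ^ 2 := by ring
      have h3 : (3264 * κ ^ 3 + 1) * X ^ 2 ≤ X * X ^ 2 := Nat.mul_le_mul_right _ (by omega)
      have h4 : 1 ≤ X ^ 2 := Nat.one_le_pow _ _ hX1
      calc 8 * t * (κ * X * ℓ) + 1 ≤ (3264 * κ ^ 3) * X ^ 2 + X ^ 2 := by omega
        _ = (3264 * κ ^ 3 + 1) * X ^ 2 := by ring
        _ ≤ X * X ^ 2 := h3
        _ = X ^ 3 := by ring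
        _ ≤ 2 ^ t := hX3
    have hB : 8 * t * V + 8 * t * ℓ + 8 * t * (κ * X) + 8 * t + 1 ≤ Y := by
      have hWX : 8 * t ≤ X := by omega
      have h1 : 8 * t * V ≤ X * V := Nat.mul_le_mul_right _ hWX
      have h2 : 8 * t * ℓ ≤ V := by
        calc 8 * t * ℓ ≤ X * (68 * κ * X) := Nat.mul_le_mul hWX hℓle
          _ ≤ X * (X * X) := Nat.mul_le_mul_left _ (Nat.mul_le_mul_right _ (by omega))
          _ = X ^ 3 := by ring
          _ ≤ V := hX3V
      have h3 : 8 * t * (κ * X) ≤ V := by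
        calc 8 * t * (κ * X) ≤ X * (X * X) :=
              Nat.mul_le_mul hWX (Nat.mul_le_mul_right _ (by omega))
          _ = X ^ 3 := by ring
          _ ≤ V := hX3V
      have hXV : X ≤ V := by
        calc X = X ^ 1 := (pow_one X).symm
          _ ≤ X ^ 3 := Nat.pow_le_pow_right hX1 (by norm_num)
          _ ≤ V := hX3V
      have h5 : (X + 4) * V ≤ X ^ 2 * V := by
        apply Nat.mul_le_mul_right
        have : 4000 ≤ X := by omega
        nlinarith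
      calc 8 * t * V + 8 * t * ℓ + 8 * t * (κ * X) + 8 * t + 1
          ≤ X * V + V + V + V + V := by omega
        _ = (X + 4) * V := by ring
        _ ≤ X ^ 2 * V := h5
        _ ≤ 2 ^ (3 * t) * V := Nat.mul_le_mul_right _ hX2'
        _ = Y := h7.symm
    have hC : 8 * t * (V + ℓ + κ * X + κ * X * ℓ * Y) + 8 * t + 1 ≤ 2 ^ (8 * t) := by
      calc 8 * t * (V + ℓ + κ * X + κ * X * ℓ * Y) + 8 * t + 1
          = (8 * t * V + 8 * t * ℓ + 8 * t * (κ * X) + 8 * t + 1) +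
              (8 * t * (κ * X * ℓ)) * Y := by ring
        _ ≤ Y + (8 * t * (κ * X * ℓ)) * Y := Nat.add_le_add_right hB _
        _ = (8 * t * (κ * X * ℓ) + 1) * Y := by ring
        _ ≤ 2 ^ t * Y := Nat.mul_le_mul_right _ hA
        _ = 2 ^ (8 * t) := h8.symm
    have hD : 8 * t * (V + ℓ + κ * X + κ * X * ℓ * Y) ≤
        8 * t * Nat.primeCounting (2 ^ (8 * t)) := by
      omega
    exact Nat.le_of_mul_le_mul_left hD (by omega)

end Vale.Agent.P012
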