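import Vale.Agent.P012.LevelB
import Vale.Agent.P012.ParamsB

namespace Vale.Agent.P012

open Finset

/-- The cost of the levels `σ ∈ (a, m]`. -/
def costB (κ a m : ℕ) : ℕ := ∑ σ ∈ Finset.Ioc a m, ((4 * κ + 8) / σ + 1)

theorem costB_self (κ a : ℕ) : costB κ a a = 0 := by
  simp [costB]

theorem costB_pred (κ σ m : ℕ) (h1 : 1 ≤ σ) (hm : σ ≤ m) :
    costB κ (σ - 1) m = costB κ σ m + ((4 * κ + 8) / σ + 1) := by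
  have hI : Finset.Ioc (σ - 1) m = insert σ (Finset.Ioc σ m) := by
    ext x
    simp only [Finset.mem_Ioc, Finset.mem_insert]
    omega
  unfold costB
  rw [hI, Finset.sum_insert (by simp), add_comm]

theorem costB_mono (κ a m m' : ℕ) (h : m ≤ m') : costB κ a m ≤ costB κ a m' := by
  unfold costB
  apply Finset.sum_le_sum_of_subset
  intro x hx
  simp only [Finset.mem_Ioc] at hx ⊢
  omega

/-- The number of stages at level `σ`. -/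
theorem stages_bounds (κ σ : ℕ) (h1 : 1 ≤ σ) (hσ : σ ≤ κ) :
    4 * κ + 8 ≤ ((4 * κ + 8) / σ + 1) * σ ∧ ((4 * κ + 8) / σ + 1) * σ ≤ 5 * κ + 8 := by
  have e1 := Nat.div_add_mod (4 * κ + 8) σ
  have e2 := Nat.mod_lt (4 * κ + 8) (show 0 < σ by omega)
  have e3 : ((4 * κ + 8) / σ + 1) * σ = σ * ((4 * κ + 8) / σ) + σ := by ring
  rw [e3]
  constructor <;> omega

/-- One step of the descent. -/
theorem chainB_step {e κ r ℓ U0 : ℕ} (he : 4 ≤ e)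
    (R : Finset ℕ) (hRc : R.card = 2 ^ κ) (hR : ∀ p ∈ R, p.Prime ∧ p ≠ 2 ∧ p ≤ 2 ^ (2 * κ + 4))
    (H3 : 512 * (κ * 2 ^ κ) ≤ 2 ^ (4 * 2 ^ r))
    (H4 : 2 ^ (4 * 2 ^ r) + ℓ + κ * 2 ^ κ + κ * 2 ^ κ * ℓ * 2 ^ (7 * 2 ^ r) ≤
      Nat.primeCounting (2 ^ (8 * 2 ^ r)))
    (hℓ : U0 + (5 * κ + 8) * 2 ^ κ ≤ ℓ)
    (d : ℕ) (hd : d + 1 + r + 3 ≤ κ) {P h' : ℕ}
    (hodd : Odd ((∏ p ∈ R, p) * P)) (hlo : 2 ^ ((2 * κ + 4) * 2 ^ (r + 3 + d)) ≤ P)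
    (hhi : 2 * ((∏ p ∈ R, p) * P) ≤ 2 ^ (U0 + (5 * κ + 8) * 2 ^ (r + 3 + d)))
    (hrep : RepB (2 ^ e * ((∏ p ∈ R, p) * P) ^ 2) (2 ^ e * P ^ 2) h') :
    ∃ P' : ℕ, Odd ((∏ p ∈ R, p) * P') ∧ 2 ^ ((2 * κ + 4) * 2 ^ (r + 3 + (d + 1))) ≤ P' ∧
      2 * ((∏ p ∈ R, p) * P') ≤ 2 ^ (U0 + (5 * κ + 8) * 2 ^ (r + 3 + (d + 1))) ∧
      RepB (2 ^ e * ((∏ p ∈ R, p) * P') ^ 2) (2 ^ e * P' ^ 2)
        (h' + 8 * ((4 * κ + 8) / (κ - r - 3 - d) + 1)) := by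
  obtain ⟨σ, hσdef⟩ : ∃ σ, σ = κ - r - 3 - d := ⟨_, rfl⟩
  rw [← hσdef]
  have hσ1 : 1 ≤ σ := by omega
  have hσ : σ + r + 3 ≤ κ := by omega
  have e1 : κ - σ = r + 3 + d := by omega
  have e2 : κ - σ - 1 = r + 2 + d := by omega
  obtain ⟨hi1, hi2⟩ := stages_bounds κ σ hσ1 (by omega)
  obtain ⟨i, hidef⟩ : ∃ i, i = (4 * κ + 8) / σ + 1 := ⟨_, rfl⟩
  rw [← hidef] at hi1 hi2 ⊢
  have hT : 2 ^ (r + 3 + (d + 1)) = 2 * 2 ^ (r + 3 + d) := by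
    rw [show r + 3 + (d + 1) = (r + 3 + d) + 1 by ring, pow_succ]; ring
  have hT' : 2 ^ (r + 3 + d) = 2 * 2 ^ (r + 2 + d) := by
    rw [show r + 3 + d = (r + 2 + d) + 1 by ring, pow_succ]; ring
  have hTκ : 2 * 2 ^ (r + 3 + d) ≤ 2 ^ κ := by
    rw [← hT]
    exact Nat.pow_le_pow_right (by norm_num) (by omega)
  have hup : i * (σ * 2 ^ (r + 3 + d)) ≤ (5 * κ + 8) * 2 ^ (r + 3 + d) := by
    rw [← mul_assoc]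
    exact Nat.mul_le_mul_right _ hi2
  have hexp : U0 + (5 * κ + 8) * 2 ^ (r + 3 + d) + i * (σ * 2 ^ (r + 3 + d)) ≤
      U0 + (5 * κ + 8) * 2 ^ (r + 3 + (d + 1)) := by
    rw [hT]
    have : (5 * κ + 8) * (2 * 2 ^ (r + 3 + d)) =
        (5 * κ + 8) * 2 ^ (r + 3 + d) + (5 * κ + 8) * 2 ^ (r + 3 + d) := by ring
    omega
  have hU : U0 + (5 * κ + 8) * 2 ^ (r + 3 + d) + i * (σ * 2 ^ (κ - σ)) ≤ ℓ := by
    rw [e1]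
    refine hexp.trans (le_trans ?_ hℓ)
    rw [hT]
    exact Nat.add_le_add_left (Nat.mul_le_mul_left _ hTκ) _
  have hlo' : 2 ^ ((2 * κ + 4) * 2 ^ (κ - σ)) ≤ P := by rw [e1]; exact hlo
  obtain ⟨P', h1, h2, h3, h4⟩ := levelB he hσ1 hσ R hRc hR H3 H4 i hodd hlo' hhi hU hrep
  rw [e2] at h2
  rw [e1] at h3
  refine ⟨P', h1, ?_, ?_, h4⟩
  · have hlow : (2 * κ + 4) * 2 ^ (r + 3 + d) ≤ i * (σ * 2 ^ (r + 2 + d)) := by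
      rw [hT', ← mul_assoc, ← mul_assoc]
      apply Nat.mul_le_mul_right
      omega
    calc 2 ^ ((2 * κ + 4) * 2 ^ (r + 3 + (d + 1)))
        = 2 ^ ((2 * κ + 4) * 2 ^ (r + 3 + d)) * 2 ^ ((2 * κ + 4) * 2 ^ (r + 3 + d)) := by
          rw [hT, ← pow_add]; congr 1; ring
      _ ≤ P * 2 ^ (i * (σ * 2 ^ (r + 2 + d))) :=
          Nat.mul_le_mul hlo (Nat.pow_le_pow_right (by norm_num) hlow)
      _ ≤ P' := h2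
  · exact h3.trans (Nat.pow_le_pow_right (by norm_num) hexp)

/-- Descending through the levels `σ = m, m - 1, …, m - d + 1`, where `m = κ - r - 3`. -/
theorem chainB {e κ r ℓ U0 : ℕ} (he : 4 ≤ e) (hr : r + 3 ≤ κ)
    (R : Finset ℕ) (hRc : R.card = 2 ^ κ) (hR : ∀ p ∈ R, p.Prime ∧ p ≠ 2 ∧ p ≤ 2 ^ (2 * κ + 4))
    (H3 : 512 * (κ * 2 ^ κ) ≤ 2 ^ (4 * 2 ^ r))
    (H4 : 2 ^ (4 * 2 ^ r) + ℓ + κ * 2 ^ κ + κ * 2 ^ κ * ℓ * 2 ^ (7 * 2 ^ r) ≤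
      Nat.primeCounting (2 ^ (8 * 2 ^ r)))
    (hℓ : U0 + (5 * κ + 8) * 2 ^ κ ≤ ℓ)
    {P0 h : ℕ} (hodd : Odd ((∏ p ∈ R, p) * P0)) (hlo : 2 ^ ((2 * κ + 4) * 2 ^ (r + 3)) ≤ P0)
    (hhi : 2 * ((∏ p ∈ R, p) * P0) ≤ 2 ^ U0)
    (hrep : RepB (2 ^ e * ((∏ p ∈ R, p) * P0) ^ 2) (2 ^ e * P0 ^ 2) h)
    (d : ℕ) (hd : d + r + 3 ≤ κ) :
    ∃ P : ℕ, Odd ((∏ p ∈ R, p) * P) ∧ 2 ^ ((2 * κ + 4) * 2 ^ (r + 3 + d)) ≤ P ∧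
      2 * ((∏ p ∈ R, p) * P) ≤ 2 ^ (U0 + (5 * κ + 8) * 2 ^ (r + 3 + d)) ∧
      RepB (2 ^ e * ((∏ p ∈ R, p) * P) ^ 2) (2 ^ e * P ^ 2)
        (h + 8 * costB κ (κ - r - 3 - d) (κ - r - 3)) := by
  induction d with
  | zero =>
    refine ⟨P0, hodd, by simpa using hlo, ?_, ?_⟩
    · exact hhi.trans (Nat.pow_le_pow_right (by norm_num) (Nat.le_add_right _ _))
    · rw [Nat.sub_zero, costB_self]
      simpa using hrep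
  | succ d ih =>
    obtain ⟨P, h1, h2, h3, h4⟩ := ih (by omega)
    obtain ⟨P', g1, g2, g3, g4⟩ := chainB_step he R hRc hR H3 H4 hℓ d (by omega) h1 h2 h3 h4
    refine ⟨P', g1, g2, g3, ?_⟩
    have hc : costB κ (κ - r - 3 - (d + 1)) (κ - r - 3) =
        costB κ (κ - r - 3 - d) (κ - r - 3) + ((4 * κ + 8) / (κ - r - 3 - d) + 1) := by
      rw [show κ - r - 3 - (d + 1) = (κ - r - 3 - d) - 1 by omega]
      exact costB_pred κ _ _ (by omega) (by omega)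
    rw [hc, Nat.mul_add, ← add_assoc]
    exact g4

theorem prod_reservoir_le {κ : ℕ} (R : Finset ℕ) (hRc : R.card = 2 ^ κ)
    (hR : ∀ p ∈ R, p.Prime ∧ p ≠ 2 ∧ p ≤ 2 ^ (2 * κ + 4)) :
    ∏ p ∈ R, p ≤ 2 ^ ((2 * κ + 4) * 2 ^ κ) := by
  calc ∏ p ∈ R, p ≤ ∏ _p ∈ R, 2 ^ (2 * κ + 4) :=
        Finset.prod_le_prod' fun p hp => (hR p hp).2.2
    _ = 2 ^ ((2 * κ + 4) * 2 ^ κ) := by
        rw [Finset.prod_const, hRc, ← pow_mul]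

theorem prod_reservoir_odd {κ : ℕ} (R : Finset ℕ)
    (hR : ∀ p ∈ R, p.Prime ∧ p ≠ 2 ∧ p ≤ 2 ^ (2 * κ + 4)) : Odd (∏ p ∈ R, p) := by
  apply Finset.prod_induction _ (fun n => Odd n)
  · intro a b ha hb
    exact ha.mul hb
  · exact odd_one
  · intro p hp
    exact (hR p hp).1.odd_of_ne_two (hR p hp).2.1

/-- The main bounded representation theorem. With `κ = k ^ 2` and `T = 2 ^ ((4 κ + 8) 2 ^ κ)`:
there are `N = X * R0` with `R0 ≤ T`, `T ^ 4 ≤ X`, and every `n < X` is a sum of few divisors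
of `N`. -/
theorem main_repB : ∃ h0 : ℕ, ∀ k, 26 ≤ k → ∃ N X R0 : ℕ, 0 < N ∧ N = X * R0 ∧
    R0 ≤ 2 ^ ((4 * k ^ 2 + 8) * 2 ^ k ^ 2) ∧ (2 ^ ((4 * k ^ 2 + 8) * 2 ^ k ^ 2)) ^ 4 ≤ X ∧
    RepB N X (h0 + 384 * k ^ 2 + 8 * costB (k ^ 2) 0 (k ^ 2) + 8 * (24 * k ^ 2 + 48)) := by
  obtain ⟨e, h0, he, hstate⟩ := main_state
  refine ⟨h0, fun k hk => ?_⟩
  obtain ⟨Q, hQodd, hQdiv, hQhi, hQrep⟩ := hstate k (by omega)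
  obtain ⟨r, hr4, hp1, H3, H4⟩ := paramsB k hk
  obtain ⟨κ, hκ⟩ : ∃ κ, κ = k ^ 2 := ⟨_, rfl⟩
  rw [← hκ] at hr4 hp1 H3 H4 ⊢
  have hκ1 : 1 ≤ κ := by omega
  obtain ⟨R, hRc, hR⟩ := exists_reservoir κ hκ1
  obtain ⟨Q0, hQ0⟩ : ∃ Q0, Q0 = ∏ p ∈ R, p := ⟨_, rfl⟩
  have hQ0le : Q0 ≤ 2 ^ ((2 * κ + 4) * 2 ^ κ) := hQ0 ▸ prod_reservoir_le R hRc hR
  have hQ0odd : Odd Q0 := hQ0 ▸ prod_reservoir_odd R hR
  have hQ0pos : 0 < Q0 := hQ0odd.pos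
  have hQpos : 0 < Q := hQodd.pos
  -- the start
  have hodd0 : Odd ((∏ p ∈ R, p) * Q) := by rw [← hQ0]; exact hQ0odd.mul hQodd
  have hlo0 : 2 ^ ((2 * κ + 4) * 2 ^ (r + 3)) ≤ Q :=
    calc 2 ^ ((2 * κ + 4) * 2 ^ (r + 3)) ≤ 2 ^ (2 ^ k) := Nat.pow_le_pow_right (by norm_num) hp1
      _ ≤ Q.divisors.card := hQdiv
      _ ≤ Q := Nat.card_divisors_le_self Q
  have hhi0 : 2 * ((∏ p ∈ R, p) * Q) ≤ 2 ^ ((2 * κ + 4) * 2 ^ κ + 48 * k * 2 ^ k) := by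
    rw [← hQ0, pow_add]
    calc 2 * (Q0 * Q) = Q0 * (2 * Q) := by ring
      _ ≤ _ := Nat.mul_le_mul hQ0le hQhi
  have hrep0 : RepB (2 ^ e * ((∏ p ∈ R, p) * Q) ^ 2) (2 ^ e * Q ^ 2) (h0 + 384 * k ^ 2) := by
    refine (RepB.of_rep hQrep).of_dvd ?_ ?_
    · rw [mul_pow]
      exact Dvd.intro_left ((∏ p ∈ R, p) ^ 2) (by ring)
    · rw [← hQ0]
      positivity
  have hℓ : (2 * κ + 4) * 2 ^ κ + 48 * k * 2 ^ k + (5 * κ + 8) * 2 ^ κ ≤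
      (19 * κ + 36) * 2 ^ κ + 48 * k * 2 ^ k := by
    have : (19 * κ + 36) * 2 ^ κ =
        (2 * κ + 4) * 2 ^ κ + (5 * κ + 8) * 2 ^ κ + (12 * κ + 24) * 2 ^ κ := by ring
    omega
  obtain ⟨P, h1, h2, h3, h4⟩ := chainB he (by omega) R hRc hR H3 H4 hℓ hodd0 hlo0 hhi0 hrep0
    (κ - r - 3) (by omega)
  have ed : r + 3 + (κ - r - 3) = κ := by omega
  rw [ed] at h2 h3
  rw [Nat.sub_self] at h4
  -- the last level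
  have hκpow : 2 ^ κ = 2 * 2 ^ (κ - 1) := by
    rw [show κ = (κ - 1) + 1 by omega, pow_succ]; simp; ring
  have hκpow2 : 2 ^ κ = 4 * 2 ^ (κ - 1 - 1) := by
    rw [show κ = (κ - 1 - 1) + 2 by omega, pow_add]; simp; ring
  have hlo1 : 2 ^ ((2 * κ + 4) * 2 ^ (κ - 1)) ≤ P :=
    le_trans (Nat.pow_le_pow_right (by norm_num)
      (Nat.mul_le_mul_left _ (Nat.pow_le_pow_right (by norm_num) (by omega)))) h2
  have hU1 : (2 * κ + 4) * 2 ^ κ + 48 * k * 2 ^ k + (5 * κ + 8) * 2 ^ κ +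
      (24 * κ + 48) * (1 * 2 ^ (κ - 1)) ≤ (19 * κ + 36) * 2 ^ κ + 48 * k * 2 ^ k := by
    have e1 : (24 * κ + 48) * (1 * 2 ^ (κ - 1)) = (12 * κ + 24) * 2 ^ κ := by
      rw [hκpow]; ring
    have e2 : (19 * κ + 36) * 2 ^ κ =
        (2 * κ + 4) * 2 ^ κ + (5 * κ + 8) * 2 ^ κ + (12 * κ + 24) * 2 ^ κ := by ring
    omega
  obtain ⟨P', g1, g2, _, g4⟩ := levelB he (le_refl 1) (by omega) R hRc hR H3 H4 (24 * κ + 48)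
    h1 hlo1 h3 hU1 h4
  rw [← hQ0] at g4
  have hP' : 2 ^ ((8 * κ + 16) * 2 ^ κ) ≤ P' := by
    refine le_trans ?_ g2
    have e1 : (24 * κ + 48) * (1 * 2 ^ (κ - 1 - 1)) = (6 * κ + 12) * 2 ^ κ := by
      rw [hκpow2]; ring
    rw [e1]
    calc 2 ^ ((8 * κ + 16) * 2 ^ κ) = 2 ^ ((2 * κ + 4) * 2 ^ κ) * 2 ^ ((6 * κ + 12) * 2 ^ κ) := by
          rw [← pow_add]; congr 1; ring
      _ ≤ P * 2 ^ ((6 * κ + 12) * 2 ^ κ) := Nat.mul_le_mul_right _ h2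
  have hP'pos : 0 < P' := lt_of_lt_of_le (by positivity) hP'
  refine ⟨2 ^ e * (Q0 * P') ^ 2, 2 ^ e * P' ^ 2, Q0 ^ 2, by positivity, by ring, ?_, ?_, ?_⟩
  · calc Q0 ^ 2 ≤ (2 ^ ((2 * κ + 4) * 2 ^ κ)) ^ 2 := Nat.pow_le_pow_left hQ0le 2
      _ = 2 ^ ((4 * κ + 8) * 2 ^ κ) := by rw [← pow_mul]; congr 1; ring
  · calc (2 ^ ((4 * κ + 8) * 2 ^ κ)) ^ 4 = (2 ^ ((8 * κ + 16) * 2 ^ κ)) ^ 2 := by
          rw [← pow_mul, ← pow_mul]; congr 1; ring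
      _ ≤ P' ^ 2 := Nat.pow_le_pow_left hP' 2
      _ ≤ 2 ^ e * P' ^ 2 := Nat.le_mul_of_pos_left _ (by positivity)
  · refine g4.mono ?_
    have := costB_mono κ 0 (κ - r - 3) κ (by omega)
    omega

end Vale.Agent.P012
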