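import Mathlib

namespace Vale.Agent.P012

open Finset

variable {ι : Type*} [Fintype ι] [DecidableEq ι] (p : ι → ℕ) [∀ i, Fact (p i).Prime]

/-- The product of the standard additive characters on `∏ i, ZMod (p i)`. -/
noncomputable def piChar : AddChar ((i : ι) → ZMod (p i)) ℂ where
  toFun x := ∏ i, ZMod.stdAddChar (x i)
  map_zero_eq_one' := by simp
  map_add_eq_mul' x y := by simp [AddChar.map_add_eq_mul, Finset.prod_mul_distrib]

theorem piChar_apply (x : (i : ι) → ZMod (p i)) :
    piChar p x = ∏ i, ZMod.stdAddChar (x i) := rfl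

theorem piChar_isPrimitive : (piChar p).IsPrimitive := by
  intro x hx
  have hex : ∃ i, x i ≠ 0 := by
    by_contra hcon
    push Not at hcon
    exact hx (funext hcon)
  obtain ⟨i, hi⟩ := hex
  have hprim := ZMod.isPrimitive_stdAddChar (p i) hi
  rw [AddChar.ne_one_iff] at hprim ⊢
  obtain ⟨y, hy⟩ := hprim
  refine ⟨Pi.single i y, ?_⟩
  rw [AddChar.mulShift_apply] at hy ⊢
  have : (piChar p) (x * Pi.single i y) = ZMod.stdAddChar (x i * y) := by
    rw [piChar_apply, Finset.prod_eq_single i]
    · simp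
    · intro j _ hj
      simp [Pi.single_eq_of_ne hj]
    · intro h; exact absurd (Finset.mem_univ i) h
  rw [this]
  exact hy

theorem card_piRing : Fintype.card ((i : ι) → ZMod (p i)) = ∏ i, p i := by
  simp [ZMod.card]

/-- The annihilator box of `ξ`. -/
noncomputable def annBox (ξ : (i : ι) → ZMod (p i)) : Finset ((i : ι) → ZMod (p i)) :=
  Fintype.piFinset (fun i => if ξ i = 0 then (Finset.univ : Finset (ZMod (p i))) else {0})

theorem mul_eq_zero_of_mem_annBox (ξ z : (i : ι) → ZMod (p i)) (hz : z ∈ annBox p ξ) :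
    ξ * z = 0 := by
  funext i
  have hzi := (Fintype.mem_piFinset.mp hz) i
  by_cases h : ξ i = 0
  · simp [h]
  · rw [if_neg h, Finset.mem_singleton] at hzi
    simp [hzi]

theorem card_annBox_mul (ξ : (i : ι) → ZMod (p i)) :
    (annBox p ξ).card * ∏ i ∈ univ.filter (fun i => ξ i ≠ 0), p i = ∏ i, p i := by
  unfold annBox
  rw [Fintype.card_piFinset, Finset.prod_filter, ← Finset.prod_mul_distrib]
  apply Finset.prod_congr rfl
  intro i _
  by_cases h : ξ i = 0
  · simp [h, ZMod.card]
  · simp [h]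

/-- Sum over all frequencies of `γ ^ |supp ξ|`. -/
theorem sum_pow_card_supp (γ : ℝ) :
    ∑ ξ : (i : ι) → ZMod (p i), γ ^ (univ.filter (fun i => ξ i ≠ 0)).card =
      ∏ i, (1 + ((p i : ℝ) - 1) * γ) := by
  have h1 : ∀ ξ : (i : ι) → ZMod (p i), γ ^ (univ.filter (fun i => ξ i ≠ 0)).card
      = ∏ i, (if ξ i = 0 then (1 : ℝ) else γ) := by
    intro ξ
    rw [← Finset.prod_const, Finset.prod_filter]
    apply Finset.prod_congr rfl
    intro i _
    by_cases h : ξ i = 0 <;> simp [h]
  simp_rw [h1]
  have h2 := Finset.prod_univ_sum (fun i => (Finset.univ : Finset (ZMod (p i))))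
    (fun i (a : ZMod (p i)) => if a = 0 then (1 : ℝ) else γ)
  rw [Fintype.piFinset_univ] at h2
  rw [← h2]
  apply Finset.prod_congr rfl
  intro i _
  rw [Finset.sum_ite, Finset.sum_const, Finset.sum_const]
  have hc0 : (Finset.univ.filter (fun a : ZMod (p i) => a = 0)).card = 1 := by
    rw [Finset.filter_eq' Finset.univ (0 : ZMod (p i))]
    simp
  have hc1 : (Finset.univ.filter (fun a : ZMod (p i) => ¬ a = 0)).card = p i - 1 := by
    have := Finset.card_filter_add_card_filter_not (s := (Finset.univ : Finset (ZMod (p i))))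
      (fun a : ZMod (p i) => a = 0)
    rw [hc0, Finset.card_univ, ZMod.card] at this
    omega
  rw [hc0, hc1]
  have hp : 1 ≤ p i := (Fact.out : (p i).Prime).one_lt.le
  simp only [one_smul, nsmul_eq_mul]
  rw [Nat.cast_sub hp]
  simp

end Vale.Agent.P012
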