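import Vale.Agent.P012.Bilinear
import Vale.Agent.P012.PiChar

namespace Vale.Agent.P012

open Finset

theorem addChar_sum {R : Type*} [AddCommMonoid R] (ψ : AddChar R ℂ) {κ : Type*} (s : Finset κ)
    (g : κ → R) : ψ (∑ i ∈ s, g i) = ∏ i ∈ s, ψ (g i) := by
  classical
  induction s using Finset.induction_on with
  | empty => simp
  | insert a s ha ih => rw [Finset.sum_insert ha, Finset.prod_insert ha, AddChar.map_add_eq_mul, ih]

section general

variable {ι : Type*} [Fintype ι] [DecidableEq ι] (p : ι → ℕ) [∀ i, Fact (p i).Prime]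

/-- support of a frequency -/
def supp (ξ : (i : ι) → ZMod (p i)) : Finset ι := univ.filter (fun i => ξ i ≠ 0)

/-- collision count -/
def En (A : Finset ℕ) (ξ : (i : ι) → ZMod (p i)) : ℕ :=
  ((A ×ˢ A).filter (fun x => ξ * ((x.1 : (i : ι) → ZMod (p i)) - (x.2 : (i : ι) → ZMod (p i))) = 0)).card

/-- bilinear sum -/
noncomputable def Sb (A : Finset ℕ) (ξ : (i : ι) → ZMod (p i)) : ℂ :=
  ∑ a ∈ A, ∑ b ∈ A, piChar p (ξ * (a : (i : ι) → ZMod (p i)) * (b : (i : ι) → ZMod (p i)))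

theorem norm_Sb_sq_le (A : Finset ℕ) (ξ : (i : ι) → ZMod (p i)) :
    ‖Sb p A ξ‖ ^ 2 ≤ ((∏ i ∈ supp p ξ, p i : ℕ) : ℝ) * (En p A ξ : ℝ) ^ 2 := by
  have h := bilinear_bound (piChar p) (piChar_isPrimitive p) A ξ (annBox p ξ)
    (fun z hz => mul_eq_zero_of_mem_annBox p ξ z hz)
  have hc := card_annBox_mul p ξ
  rw [card_piRing, ← hc] at h
  have hpos : 0 < (annBox p ξ).card := by
    rcases Nat.eq_zero_or_pos (annBox p ξ).card with h0 | h0
    · exfalso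
      rw [h0, zero_mul] at hc
      have : 0 < ∏ i, p i := Finset.prod_pos (fun i _ => (Fact.out : (p i).Prime).pos)
      omega
    · exact h0
  have hpos' : (0 : ℝ) < ((annBox p ξ).card : ℝ) := by exact_mod_cast hpos
  push_cast at h
  rw [mul_assoc] at h
  have := le_of_mul_le_mul_left h hpos'
  simpa [Sb, En, supp] using this

theorem supp_subset_of_mul_eq_zero (ξ : (i : ι) → ZMod (p i)) (a b : ℕ)
    (h : ξ * ((a : (i : ι) → ZMod (p i)) - (b : (i : ι) → ZMod (p i))) = 0) :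
    supp p ξ ⊆ univ.filter (fun i => (p i : ℤ) ∣ (a : ℤ) - (b : ℤ)) := by
  intro i hi
  simp only [supp, mem_filter, mem_univ, true_and] at hi ⊢
  have h1 := congrFun h i
  simp only [Pi.mul_apply, Pi.sub_apply, Pi.natCast_apply, Pi.zero_apply] at h1
  have h2 : ((a : ZMod (p i)) - (b : ZMod (p i))) = 0 := by
    rcases mul_eq_zero.mp h1 with h3 | h3
    · exact absurd h3 hi
    · exact h3
  have h3 : (((a : ℤ) - (b : ℤ) : ℤ) : ZMod (p i)) = 0 := by
    push_cast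
    exact h2
  exact (ZMod.intCast_zmod_eq_zero_iff_dvd _ _).mp h3

theorem En_mul_pow_le (A : Finset ℕ) (lam : ℝ) (hlam : 1 ≤ lam)
    (hpot : ∑ x ∈ A.offDiag,
      (1 + lam) ^ (univ.filter (fun i => (p i : ℤ) ∣ (x.1 : ℤ) - (x.2 : ℤ))).card ≤
        3 * (A.card : ℝ) ^ 2)
    (hA : lam ^ Fintype.card ι ≤ (A.card : ℝ)) (ξ : (i : ι) → ZMod (p i)) :
    (En p A ξ : ℝ) * lam ^ (supp p ξ).card ≤ 4 * (A.card : ℝ) ^ 2 := by
  have hlam0 : (0 : ℝ) ≤ lam := by linarith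
  set P : ℕ × ℕ → Prop := fun x =>
    ξ * ((x.1 : (i : ι) → ZMod (p i)) - (x.2 : (i : ι) → ZMod (p i))) = 0 with hP
  have hsplit : En p A ξ ≤ A.card + (A.offDiag.filter P).card := by
    unfold En
    rw [← Finset.diag_union_offDiag, Finset.filter_union]
    refine (Finset.card_union_le _ _).trans ?_
    gcongr
    exact (Finset.card_filter_le _ _).trans (by simp)
  have h1 : ((A.offDiag.filter P).card : ℝ) * lam ^ (supp p ξ).card ≤ 3 * (A.card : ℝ) ^ 2 := by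
    calc ((A.offDiag.filter P).card : ℝ) * lam ^ (supp p ξ).card
        = ∑ x ∈ A.offDiag.filter P, lam ^ (supp p ξ).card := by
          rw [Finset.sum_const, nsmul_eq_mul]
      _ ≤ ∑ x ∈ A.offDiag.filter P,
          (1 + lam) ^ (univ.filter (fun i => (p i : ℤ) ∣ (x.1 : ℤ) - (x.2 : ℤ))).card := by
          apply Finset.sum_le_sum
          intro x hx
          have hx2 : P x := (Finset.mem_filter.mp hx).2
          have hsub := supp_subset_of_mul_eq_zero p ξ x.1 x.2 hx2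
          calc lam ^ (supp p ξ).card ≤ (1 + lam) ^ (supp p ξ).card := by
                gcongr; linarith
            _ ≤ _ := by
                apply pow_le_pow_right₀ (by linarith)
                exact Finset.card_le_card hsub
      _ ≤ ∑ x ∈ A.offDiag,
          (1 + lam) ^ (univ.filter (fun i => (p i : ℤ) ∣ (x.1 : ℤ) - (x.2 : ℤ))).card := by
          apply Finset.sum_le_sum_of_subset_of_nonneg (Finset.filter_subset _ _)
          intro x _ _
          positivity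
      _ ≤ _ := hpot
  have h2 : (A.card : ℝ) * lam ^ (supp p ξ).card ≤ (A.card : ℝ) ^ 2 := by
    have : lam ^ (supp p ξ).card ≤ lam ^ Fintype.card ι := by
      apply pow_le_pow_right₀ hlam
      exact Finset.card_le_univ _
    calc (A.card : ℝ) * lam ^ (supp p ξ).card ≤ (A.card : ℝ) * (A.card : ℝ) := by
          gcongr
          exact this.trans hA
      _ = _ := by ring
  have hsplit' : (En p A ξ : ℝ) ≤ (A.card : ℝ) + ((A.offDiag.filter P).card : ℝ) := by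
    exact_mod_cast hsplit
  have hpw : (0 : ℝ) ≤ lam ^ (supp p ξ).card := by positivity
  calc (En p A ξ : ℝ) * lam ^ (supp p ξ).card
      ≤ ((A.card : ℝ) + ((A.offDiag.filter P).card : ℝ)) * lam ^ (supp p ξ).card := by
        gcongr
    _ = (A.card : ℝ) * lam ^ (supp p ξ).card +
        ((A.offDiag.filter P).card : ℝ) * lam ^ (supp p ξ).card := by ring
    _ ≤ (A.card : ℝ) ^ 2 + 3 * (A.card : ℝ) ^ 2 := by linarith
    _ = _ := by ring

theorem supp_two_pow_mul (h2 : ∀ i, p i ≠ 2) (j : ℕ) (ξ : (i : ι) → ZMod (p i)) :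
    supp p ((2 : (i : ι) → ZMod (p i)) ^ j * ξ) = supp p ξ := by
  unfold supp
  apply Finset.filter_congr
  intro i _
  have h2i : (2 : ZMod (p i)) ≠ 0 := by
    intro h
    have h' : ((2 : ℕ) : ZMod (p i)) = 0 := by exact_mod_cast h
    rw [ZMod.natCast_eq_zero_iff] at h'
    have hp : (p i).Prime := Fact.out
    have := (Nat.prime_dvd_prime_iff_eq hp Nat.prime_two).mp h'
    exact h2 i this
  simp only [Pi.mul_apply, Pi.pow_apply, Pi.ofNat_apply, ne_eq, mul_eq_zero, pow_eq_zero_iff',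
    not_or, not_and]
  constructor
  · intro h; exact h.2
  · intro h; exact ⟨fun h' => absurd h' h2i, h⟩

theorem norm_Sb_sq_le' (A : Finset ℕ) (lam : ℝ) (hlam : 1 ≤ lam) (Y : ℕ) (hY : ∀ i, p i ≤ Y)
    (hpot : ∑ x ∈ A.offDiag,
      (1 + lam) ^ (univ.filter (fun i => (p i : ℤ) ∣ (x.1 : ℤ) - (x.2 : ℤ))).card ≤
        3 * (A.card : ℝ) ^ 2)
    (hA : lam ^ Fintype.card ι ≤ (A.card : ℝ)) (ξ : (i : ι) → ZMod (p i)) :
    ‖Sb p A ξ‖ ^ 2 ≤ 16 * (A.card : ℝ) ^ 4 * ((Y : ℝ) / lam ^ 2) ^ (supp p ξ).card := by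
  have hlam0 : (0 : ℝ) < lam := by linarith
  have h1 := norm_Sb_sq_le p A ξ
  have h2 := En_mul_pow_le p A lam hlam hpot hA ξ
  set T := (supp p ξ).card with hT
  have h3 : ((∏ i ∈ supp p ξ, p i : ℕ) : ℝ) ≤ (Y : ℝ) ^ T := by
    have : (∏ i ∈ supp p ξ, p i) ≤ Y ^ T := by
      rw [hT]
      exact Finset.prod_le_pow_card _ _ _ (fun i _ => hY i)
    exact_mod_cast this
  have hpw : (0 : ℝ) < lam ^ T := by positivity
  have h4 : (En p A ξ : ℝ) ≤ 4 * (A.card : ℝ) ^ 2 / lam ^ T := by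
    rw [le_div_iff₀ hpw]; exact h2
  have h5 : (En p A ξ : ℝ) ^ 2 ≤ (4 * (A.card : ℝ) ^ 2 / lam ^ T) ^ 2 := by
    gcongr
  calc ‖Sb p A ξ‖ ^ 2 ≤ ((∏ i ∈ supp p ξ, p i : ℕ) : ℝ) * (En p A ξ : ℝ) ^ 2 := h1
    _ ≤ (Y : ℝ) ^ T * (4 * (A.card : ℝ) ^ 2 / lam ^ T) ^ 2 := by gcongr
    _ = 16 * (A.card : ℝ) ^ 4 * ((Y : ℝ) / lam ^ 2) ^ T := by
        rw [div_pow, div_pow, ← pow_mul, ← pow_mul, mul_comm T 2]
        ring

theorem prod_norm_Sb_le (h2 : ∀ i, p i ≠ 2) (A : Finset ℕ) (lam : ℝ) (hlam : 1 ≤ lam) (Y : ℕ)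
    (hY : ∀ i, p i ≤ Y)
    (hpot : ∑ x ∈ A.offDiag,
      (1 + lam) ^ (univ.filter (fun i => (p i : ℤ) ∣ (x.1 : ℤ) - (x.2 : ℤ))).card ≤
        3 * (A.card : ℝ) ^ 2)
    (hA : lam ^ Fintype.card ι ≤ (A.card : ℝ)) (ξ : (i : ι) → ZMod (p i)) :
    ∏ j : Fin 4, ‖Sb p A ((2 : (i : ι) → ZMod (p i)) ^ (j : ℕ) * ξ)‖ ≤
      (A.card : ℝ) ^ 8 * (256 * ((Y : ℝ) ^ 2 / lam ^ 4) ^ (supp p ξ).card) := by
  have hlam0 : (0 : ℝ) < lam := by linarith
  set X : ℝ := 16 * (A.card : ℝ) ^ 4 * ((Y : ℝ) / lam ^ 2) ^ (supp p ξ).card with hX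
  have hX0 : 0 ≤ X := by positivity
  have hj : ∀ j : Fin 4, ‖Sb p A ((2 : (i : ι) → ZMod (p i)) ^ (j : ℕ) * ξ)‖ ≤ Real.sqrt X := by
    intro j
    apply Real.le_sqrt_of_sq_le
    have := norm_Sb_sq_le' p A lam hlam Y hY hpot hA ((2 : (i : ι) → ZMod (p i)) ^ (j : ℕ) * ξ)
    rw [supp_two_pow_mul p h2] at this
    exact this
  calc ∏ j : Fin 4, ‖Sb p A ((2 : (i : ι) → ZMod (p i)) ^ (j : ℕ) * ξ)‖
      ≤ ∏ _j : Fin 4, Real.sqrt X := by
        apply Finset.prod_le_prod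
        · intro j _; positivity
        · intro j _; exact hj j
    _ = (Real.sqrt X ^ 2) ^ 2 := by
        rw [Finset.prod_const]; simp; ring
    _ = X ^ 2 := by rw [Real.sq_sqrt hX0]
    _ = _ := by
        have e1 : (((Y : ℝ) / lam ^ 2) ^ (supp p ξ).card) ^ 2 =
            ((Y : ℝ) ^ 2 / lam ^ 4) ^ (supp p ξ).card := by
          rw [← pow_mul, mul_comm, pow_mul, div_pow, ← pow_mul]
        rw [hX, mul_pow, mul_pow, e1]
        ring

theorem supp_card_pos (ξ : (i : ι) → ZMod (p i)) (hξ : ξ ≠ 0) : 1 ≤ (supp p ξ).card := by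
  rw [Nat.one_le_iff_ne_zero, Finset.card_ne_zero]
  by_contra h
  rw [Finset.not_nonempty_iff_eq_empty] at h
  apply hξ
  funext i
  by_contra hi
  have : i ∈ supp p ξ := by
    simp only [supp, mem_filter, mem_univ, true_and]
    exact hi
  rw [h] at this
  simp at this

theorem sum_ne_zero_lt (Y : ℕ) (hY : ∀ i, p i ≤ Y) (lam : ℝ) (hlam : 1 ≤ lam)
    (hbig : 512 * (Fintype.card ι : ℝ) * (Y : ℝ) ^ 3 ≤ lam ^ 4) :
    ∑ ξ ∈ univ.erase (0 : (i : ι) → ZMod (p i)),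
      256 * ((Y : ℝ) ^ 2 / lam ^ 4) ^ (supp p ξ).card < 1 := by
  have hlam0 : (0 : ℝ) < lam := by linarith
  set β : ℝ := (Y : ℝ) ^ 2 / lam ^ 4 with hβ
  have hβ0 : 0 ≤ β := by positivity
  set γ : ℝ := 256 * β with hγ
  have hγ0 : 0 ≤ γ := by positivity
  have h1 : ∑ ξ ∈ univ.erase (0 : (i : ι) → ZMod (p i)), 256 * β ^ (supp p ξ).card ≤
      ∑ ξ ∈ univ.erase (0 : (i : ι) → ZMod (p i)), γ ^ (supp p ξ).card := by
    apply Finset.sum_le_sum
    intro ξ hξ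
    have hξ0 : ξ ≠ 0 := (Finset.mem_erase.mp hξ).1
    have hc := supp_card_pos p ξ hξ0
    rw [hγ, mul_pow]
    have : (256 : ℝ) ≤ 256 ^ (supp p ξ).card := by
      calc (256 : ℝ) = 256 ^ 1 := by norm_num
        _ ≤ 256 ^ (supp p ξ).card := pow_le_pow_right₀ (by norm_num) hc
    have hb : 0 ≤ β ^ (supp p ξ).card := by positivity
    nlinarith
  have h2 : ∑ ξ ∈ univ.erase (0 : (i : ι) → ZMod (p i)), γ ^ (supp p ξ).card =
      ∏ i, (1 + ((p i : ℝ) - 1) * γ) - 1 := by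
    rw [← sum_pow_card_supp p γ, ← Finset.add_sum_erase univ _ (Finset.mem_univ
      (0 : (i : ι) → ZMod (p i)))]
    simp [supp]
  set x : ℝ := (Y : ℝ) * γ with hx
  have hx0 : 0 ≤ x := by positivity
  have h3 : ∏ i, (1 + ((p i : ℝ) - 1) * γ) ≤ (1 + x) ^ Fintype.card ι := by
    calc ∏ i, (1 + ((p i : ℝ) - 1) * γ) ≤ ∏ _i : ι, (1 + x) := by
          apply Finset.prod_le_prod
          · intro i _
            have : (1 : ℝ) ≤ (p i : ℝ) := by
              exact_mod_cast (Fact.out : (p i).Prime).one_le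
            have : 0 ≤ ((p i : ℝ) - 1) * γ := mul_nonneg (by linarith) hγ0
            linarith
          · intro i _
            have : (p i : ℝ) ≤ (Y : ℝ) := by exact_mod_cast hY i
            have : ((p i : ℝ) - 1) * γ ≤ (Y : ℝ) * γ := by
              apply mul_le_mul_of_nonneg_right _ hγ0
              linarith
            linarith
      _ = _ := by rw [Finset.prod_const]; rfl
  have h4 : (Fintype.card ι : ℝ) * x ≤ 1 / 2 := by
    have hl4 : (0 : ℝ) < lam ^ 4 := by positivity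
    have : (Fintype.card ι : ℝ) * x = (512 * (Fintype.card ι : ℝ) * (Y : ℝ) ^ 3) / lam ^ 4 / 2 := by
      rw [hx, hγ, hβ]; field_simp; ring
    rw [this]
    have : (512 * (Fintype.card ι : ℝ) * (Y : ℝ) ^ 3) / lam ^ 4 ≤ 1 := by
      rw [div_le_one hl4]; exact hbig
    linarith
  have h5 : (1 + x) ^ Fintype.card ι ≤ Real.exp (1 / 2) := by
    calc (1 + x) ^ Fintype.card ι ≤ (Real.exp x) ^ Fintype.card ι := by
          gcongr
          linarith [Real.add_one_le_exp x]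
      _ = Real.exp ((Fintype.card ι : ℝ) * x) := by
          rw [← Real.exp_nat_mul]
      _ ≤ _ := Real.exp_le_exp.mpr h4
  have h6 : Real.exp (1 / 2) < 2 := by
    have e1 : Real.exp (1 / 2) * Real.exp (1 / 2) = Real.exp 1 := by
      rw [← Real.exp_add]; norm_num
    have e2 := Real.exp_one_lt_d9
    have e3 := Real.exp_pos (1 / 2)
    nlinarith
  linarith

theorem fourier_identity (A : Finset ℕ) (c : (i : ι) → ZMod (p i)) :
    ∑ ξ : (i : ι) → ZMod (p i), piChar p (-(ξ * c)) *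
        ∏ j : Fin 4, Sb p A ((2 : (i : ι) → ZMod (p i)) ^ (j : ℕ) * ξ) =
      ∑ f ∈ Fintype.piFinset (fun _ : Fin 4 => A ×ˢ A),
        (if (∑ j : Fin 4, (2 : (i : ι) → ZMod (p i)) ^ (j : ℕ) * ((f j).1 : (i : ι) → ZMod (p i)) *
            ((f j).2 : (i : ι) → ZMod (p i))) - c = 0
          then (Fintype.card ((i : ι) → ZMod (p i)) : ℂ) else 0) := by
  have hS : ∀ η : (i : ι) → ZMod (p i), Sb p A η =
      ∑ x ∈ A ×ˢ A, piChar p (η * (x.1 : (i : ι) → ZMod (p i)) * (x.2 : (i : ι) → ZMod (p i))) := by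
    intro η
    unfold Sb
    rw [Finset.sum_product]
  simp_rw [hS, Finset.prod_univ_sum, Finset.mul_sum]
  rw [Finset.sum_comm]
  apply Finset.sum_congr rfl
  intro f _
  have hs := AddChar.sum_mulShift (ψ := piChar p)
    ((∑ j : Fin 4, (2 : (i : ι) → ZMod (p i)) ^ (j : ℕ) * ((f j).1 : (i : ι) → ZMod (p i)) *
            ((f j).2 : (i : ι) → ZMod (p i))) - c) (piChar_isPrimitive p)
  rw [Nat.cast_ite, Nat.cast_zero] at hs
  rw [← hs]
  apply Finset.sum_congr rfl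
  intro ξ _
  rw [← addChar_sum, ← AddChar.map_add_eq_mul]
  congr 1
  rw [mul_sub, Finset.mul_sum, neg_add_eq_sub]
  congr 1
  apply Finset.sum_congr rfl
  intro j _
  ring

theorem Sb_zero (A : Finset ℕ) : Sb p A 0 = ((A.card : ℂ)) ^ 2 := by
  unfold Sb
  simp
  ring

theorem core_general (h2 : ∀ i, p i ≠ 2) (Y : ℕ) (hY : ∀ i, p i ≤ Y) (A : Finset ℕ) (lam : ℝ)
    (hlam : 1 ≤ lam)
    (hpot : ∑ x ∈ A.offDiag,
      (1 + lam) ^ (univ.filter (fun i => (p i : ℤ) ∣ (x.1 : ℤ) - (x.2 : ℤ))).card ≤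
        3 * (A.card : ℝ) ^ 2)
    (hA : lam ^ Fintype.card ι ≤ (A.card : ℝ))
    (hbig : 512 * (Fintype.card ι : ℝ) * (Y : ℝ) ^ 3 ≤ lam ^ 4) (c : (i : ι) → ZMod (p i)) :
    ∃ f ∈ Fintype.piFinset (fun _ : Fin 4 => A ×ˢ A),
      ∑ j : Fin 4, (2 : (i : ι) → ZMod (p i)) ^ (j : ℕ) * ((f j).1 : (i : ι) → ZMod (p i)) *
            ((f j).2 : (i : ι) → ZMod (p i)) = c := by
  by_contra hcon
  push Not at hcon
  have hApos : (0 : ℝ) < (A.card : ℝ) := by
    have : (1 : ℝ) ≤ lam ^ Fintype.card ι := one_le_pow₀ hlam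
    linarith
  have h0 := fourier_identity p A c
  have hz : ∑ f ∈ Fintype.piFinset (fun _ : Fin 4 => A ×ˢ A),
        (if (∑ j : Fin 4, (2 : (i : ι) → ZMod (p i)) ^ (j : ℕ) * ((f j).1 : (i : ι) → ZMod (p i)) *
            ((f j).2 : (i : ι) → ZMod (p i))) - c = 0
          then (Fintype.card ((i : ι) → ZMod (p i)) : ℂ) else 0) = 0 := by
    apply Finset.sum_eq_zero
    intro f hf
    rw [if_neg]
    rw [sub_eq_zero]
    exact hcon f hf
  rw [hz, ← Finset.add_sum_erase univ _ (Finset.mem_univ (0 : (i : ι) → ZMod (p i)))] at h0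
  simp only [zero_mul, neg_zero, AddChar.map_zero_eq_one, mul_zero, Sb_zero, one_mul,
    Finset.prod_const, Finset.card_univ, Fintype.card_fin] at h0
  have h1 : ((A.card : ℂ) ^ 2) ^ 4 = - ∑ ξ ∈ univ.erase (0 : (i : ι) → ZMod (p i)),
      piChar p (-(ξ * c)) * ∏ j : Fin 4, Sb p A ((2 : (i : ι) → ZMod (p i)) ^ (j : ℕ) * ξ) := by
    rw [eq_neg_iff_add_eq_zero]; exact h0
  have h3 : ‖((A.card : ℂ) ^ 2) ^ 4‖ = (A.card : ℝ) ^ 8 := by
    rw [norm_pow, norm_pow, Complex.norm_natCast]; ring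
  have h4 : (A.card : ℝ) ^ 8 ≤ ∑ ξ ∈ univ.erase (0 : (i : ι) → ZMod (p i)),
      (A.card : ℝ) ^ 8 * (256 * ((Y : ℝ) ^ 2 / lam ^ 4) ^ (supp p ξ).card) := by
    have h3' : (A.card : ℝ) ^ 8 = ‖∑ ξ ∈ univ.erase (0 : (i : ι) → ZMod (p i)),
      piChar p (-(ξ * c)) * ∏ j : Fin 4, Sb p A ((2 : (i : ι) → ZMod (p i)) ^ (j : ℕ) * ξ)‖ := by
      rw [← h3, h1, norm_neg]
    refine h3'.le.trans ?_
    refine (norm_sum_le _ _).trans ?_
    apply Finset.sum_le_sum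
    intro ξ _
    rw [norm_mul, AddChar.norm_apply, one_mul, norm_prod]
    exact prod_norm_Sb_le p h2 A lam hlam Y hY hpot hA ξ
  rw [← Finset.mul_sum] at h4
  have h5 := sum_ne_zero_lt p Y hY lam hlam hbig
  have h6 : (0 : ℝ) < (A.card : ℝ) ^ 8 := by positivity
  nlinarith

end general

/-- The Fourier core: if the potential of `A` with respect to the odd primes `M` is small, then every
residue class modulo all `p ∈ M` simultaneously is hit by `∑ j < 4, 2 ^ j * a j * a' j`. -/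
theorem core (M : Finset ℕ) (hM : ∀ p ∈ M, p.Prime ∧ p ≠ 2) (Y : ℕ) (hY : ∀ p ∈ M, p ≤ Y)
    (A : Finset ℕ) (lam : ℝ) (hlam : 1 ≤ lam)
    (hpot : ∑ x ∈ A.offDiag,
      (1 + lam) ^ (M.filter (fun p : ℕ => (p : ℤ) ∣ (x.1 : ℤ) - (x.2 : ℤ))).card ≤
        3 * (A.card : ℝ) ^ 2)
    (hA : lam ^ M.card ≤ (A.card : ℝ))
    (hbig : 512 * (M.card : ℝ) * (Y : ℝ) ^ 3 ≤ lam ^ 4) (n : ℕ) :
    ∃ f : Fin 4 → ℕ × ℕ, (∀ j, (f j).1 ∈ A ∧ (f j).2 ∈ A) ∧
      ∀ p ∈ M, (∑ j : Fin 4, 2 ^ (j : ℕ) * (f j).1 * (f j).2) ≡ n [MOD p] := by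
  classical
  have : ∀ i : M, Fact (Nat.Prime (i : ℕ)) := fun i => ⟨(hM i i.2).1⟩
  have hcard : Fintype.card M = M.card := Fintype.card_coe M
  have hfilter : ∀ x : ℕ × ℕ,
      (univ.filter (fun i : M => ((i : ℕ) : ℤ) ∣ (x.1 : ℤ) - (x.2 : ℤ))).card =
        (M.filter (fun p : ℕ => (p : ℤ) ∣ (x.1 : ℤ) - (x.2 : ℤ))).card := by
    intro x
    apply Finset.card_bij (fun (i : M) _ => (i : ℕ))
    · intro i hi
      simp only [mem_filter, mem_univ, true_and] at hi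
      exact Finset.mem_filter.mpr ⟨i.2, hi⟩
    · intro i _ j _ hij
      exact Subtype.ext hij
    · intro q hq
      rw [Finset.mem_filter] at hq
      exact ⟨⟨q, hq.1⟩, by simp only [mem_filter, mem_univ, true_and]; exact hq.2, rfl⟩
  have hpot' : ∑ x ∈ A.offDiag,
      (1 + lam) ^ (univ.filter (fun i : M => ((i : ℕ) : ℤ) ∣ (x.1 : ℤ) - (x.2 : ℤ))).card ≤
        3 * (A.card : ℝ) ^ 2 := by
    simp_rw [hfilter]
    exact hpot
  obtain ⟨f, hf, hsum⟩ := core_general (fun i : M => (i : ℕ)) (fun i => (hM i i.2).2) Y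
    (fun i => hY i i.2) A lam hlam hpot' (by rwa [hcard]) (by rwa [hcard])
    ((n : ℕ) : (i : M) → ZMod (i : ℕ))
  refine ⟨f, ?_, ?_⟩
  · intro j
    have := Fintype.mem_piFinset.mp hf j
    exact Finset.mem_product.mp this
  · intro q hq
    have h1 := congrFun hsum ⟨q, hq⟩
    simp only [Finset.sum_apply, Pi.mul_apply, Pi.pow_apply, Pi.ofNat_apply, Pi.natCast_apply] at h1
    rw [← ZMod.natCast_eq_natCast_iff]
    push_cast
    exact h1

end Vale.Agent.P012
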