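import Mathlib

namespace Vale.Agent.P012

/-- `Rep N h`: every natural number `n < N` is a sum of at most `h` distinct divisors of `N`. -/
def Rep (N h : ℕ) : Prop :=
  ∀ n < N, ∃ D : Finset ℕ, D ⊆ N.divisors ∧ D.card ≤ h ∧ ∑ d ∈ D, d = n

end Vale.Agent.P012
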