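import Vale.Agent.P012.Defs

namespace Vale.Agent.P012

/-- From `Rep N h` and `b ≤ N`: every `a / b` in `(0,1)` is a sum of at most `2 h` distinct unit
fractions with denominators at least `2`.
Proof: `a * N = q * b + r`, `r < b`, `q < N`; `q = ∑ D₁`, `r = ∑ D₂`;
`a / b = ∑_{d ∈ D₁} 1 / (N / d) + ∑_{d ∈ D₂} 1 / (b * N / d)`; the first denominators lie in `[2, N]`,
the second ones are `> N`. -/
theorem egyptian_of_rep {N h a b : ℕ} (hN : Rep N h) (hb : b ≤ N) (ha : 1 ≤ a) (hab : a < b) :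
    ∃ S : Finset ℕ, (∀ n ∈ S, 2 ≤ n) ∧ S.card ≤ 2 * h ∧ ∑ n ∈ S, (1 : ℚ) / n = a / b := by
  classical
  have hb0 : 0 < b := by omega
  have hN0 : 0 < N := by omega
  set q := a * N / b with hq
  set r := a * N % b with hr
  have hdiv : a * N = q * b + r := by
    rw [hq, hr, mul_comm (a * N / b) b]; exact (Nat.div_add_mod _ _).symm
  have hrb : r < b := Nat.mod_lt _ hb0
  have hqN : q < N := by
    rw [hq, Nat.div_lt_iff_lt_mul hb0, mul_comm N b]
    exact Nat.mul_lt_mul_of_pos_right hab hN0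
  obtain ⟨D₁, hD₁, hc₁, hs₁⟩ := hN q hqN
  obtain ⟨D₂, hD₂, hc₂, hs₂⟩ := hN r (lt_of_lt_of_le hrb hb)
  -- elements of D₁ are < N, of D₂ are < b
  have hlt₁ : ∀ d ∈ D₁, d < N := fun d hd =>
    lt_of_le_of_lt (hs₁ ▸ Finset.single_le_sum (f := fun d => d) (fun _ _ => Nat.zero_le _) hd) hqN
  have hlt₂ : ∀ d ∈ D₂, d < b := fun d hd =>
    lt_of_le_of_lt (hs₂ ▸ Finset.single_le_sum (f := fun d => d) (fun _ _ => Nat.zero_le _) hd) hrb
  have hdvd₁ : ∀ d ∈ D₁, d ∣ N := fun d hd => Nat.dvd_of_mem_divisors (hD₁ hd)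
  have hdvd₂ : ∀ d ∈ D₂, d ∣ N := fun d hd => Nat.dvd_of_mem_divisors (hD₂ hd)
  have hpos : ∀ d, d ∣ N → 0 < d := fun d hd => Nat.pos_of_dvd_of_pos hd hN0
  have hinj : ∀ d d', d ∣ N → d' ∣ N → N / d = N / d' → d = d' := by
    intro d d' hd hd' h
    have h1 : d * (N / d) = N := Nat.mul_div_cancel' hd
    have h2 : d' * (N / d') = N := Nat.mul_div_cancel' hd'
    have h3 : 0 < N / d' := Nat.div_pos (Nat.le_of_dvd hN0 hd') (hpos d' hd')
    rw [h] at h1
    exact Nat.eq_of_mul_eq_mul_right h3 (h1.trans h2.symm)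
  set S₁ := D₁.image (fun d => N / d) with hS₁
  set S₂ := D₂.image (fun d => b * (N / d)) with hS₂
  have hS₁le : ∀ n ∈ S₁, 2 ≤ n ∧ n ≤ N := by
    intro n hn
    rw [hS₁, Finset.mem_image] at hn
    obtain ⟨d, hd, rfl⟩ := hn
    refine ⟨?_, Nat.div_le_self _ _⟩
    have h1 : d * (N / d) = N := Nat.mul_div_cancel' (hdvd₁ d hd)
    have h2 := hlt₁ d hd
    by_contra hcon
    have h3 : N / d ≤ 1 := by omega
    have : d * (N / d) ≤ d * 1 := Nat.mul_le_mul_left d h3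
    omega
  have hS₂gt : ∀ n ∈ S₂, N < n := by
    intro n hn
    rw [hS₂, Finset.mem_image] at hn
    obtain ⟨d, hd, rfl⟩ := hn
    have h1 : d * (N / d) = N := Nat.mul_div_cancel' (hdvd₂ d hd)
    have h2 := hlt₂ d hd
    have h3 : 0 < N / d := Nat.div_pos (Nat.le_of_dvd hN0 (hdvd₂ d hd)) (hpos d (hdvd₂ d hd))
    calc N = d * (N / d) := h1.symm
      _ < b * (N / d) := Nat.mul_lt_mul_of_pos_right h2 h3
  have hdisj : Disjoint S₁ S₂ := by
    rw [Finset.disjoint_left]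
    intro n h1 h2
    have := (hS₁le n h1).2
    have := hS₂gt n h2
    omega
  refine ⟨S₁ ∪ S₂, ?_, ?_, ?_⟩
  · intro n hn
    rcases Finset.mem_union.1 hn with h | h
    · exact (hS₁le n h).1
    · have := hS₂gt n h
      omega
  · calc (S₁ ∪ S₂).card ≤ S₁.card + S₂.card := Finset.card_union_le _ _
      _ ≤ D₁.card + D₂.card := Nat.add_le_add Finset.card_image_le Finset.card_image_le
      _ ≤ 2 * h := by omega
  · rw [Finset.sum_union hdisj, hS₁, hS₂, Finset.sum_image, Finset.sum_image]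
    · have hNq : (N : ℚ) ≠ 0 := by exact_mod_cast hN0.ne'
      have hbq : (b : ℚ) ≠ 0 := by exact_mod_cast hb0.ne'
      have e₁ : ∀ d ∈ D₁, (1 : ℚ) / ((N / d : ℕ) : ℚ) = (d : ℚ) / N := by
        intro d hd
        have hdq : (d : ℚ) ≠ 0 := by exact_mod_cast (hpos d (hdvd₁ d hd)).ne'
        rw [Nat.cast_div (hdvd₁ d hd) hdq]
        field_simp
      have e₂ : ∀ d ∈ D₂, (1 : ℚ) / ((b * (N / d) : ℕ) : ℚ) = (d : ℚ) / (b * N) := by
        intro d hd
        have hdq : (d : ℚ) ≠ 0 := by exact_mod_cast (hpos d (hdvd₂ d hd)).ne'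
        rw [Nat.cast_mul, Nat.cast_div (hdvd₂ d hd) hdq]
        field_simp
      rw [Finset.sum_congr rfl e₁, Finset.sum_congr rfl e₂, ← Finset.sum_div, ← Finset.sum_div,
        ← Nat.cast_sum, ← Nat.cast_sum, hs₁, hs₂]
      have h4 : (a : ℚ) * N = q * b + r := by exact_mod_cast hdiv
      field_simp
      linarith
    · intro d hd d' hd' h
      have h5 : N / d = N / d' := Nat.eq_of_mul_eq_mul_left hb0 h
      exact hinj d d' (hdvd₂ d hd) (hdvd₂ d' hd') h5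
    · intro d hd d' hd' h
      exact hinj d d' (hdvd₁ d hd) (hdvd₁ d' hd') h

end Vale.Agent.P012
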