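import Mathlib

namespace Vale.Agent.P012

open Finset

/-- Chebyshev-type lower bound. -/
theorem primeCounting_two_pow' (u : ℕ) :
    2 ^ u ≤ u * Nat.primeCounting (2 ^ u) + u + 1 := by
  set n := 2 ^ u with hn
  have hn0 : n ≠ 0 := by positivity
  have h1 : 2 ^ n ≤ (n + 1) * Nat.lcmUpto n := Chebyshev.two_pow_le_mul_lcmUpto n
  have h2 : Nat.lcmUpto n ≤ n ^ (Nat.primeCounting n) := by
    rw [Nat.lcmUpto_eq_prod_pow_log]
    calc ∏ p ∈ Nat.primesLE n, p ^ p.log n ≤ ∏ _p ∈ Nat.primesLE n, n :=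
          Finset.prod_le_prod' fun p _ => Nat.pow_log_le_self p hn0
      _ = n ^ (Nat.primesLE n).card := by rw [Finset.prod_const]
      _ = n ^ (Nat.primeCounting n) := by
          congr 1
          exact Nat.primesLE_card_eq_primeCounting n
  have h3 : n + 1 ≤ 2 ^ (u + 1) := by
    rw [pow_succ]
    have : 1 ≤ n := Nat.one_le_two_pow
    omega
  have h4 : 2 ^ n ≤ 2 ^ (u + 1 + u * Nat.primeCounting n) := by
    calc 2 ^ n ≤ (n + 1) * Nat.lcmUpto n := h1
      _ ≤ 2 ^ (u + 1) * n ^ (Nat.primeCounting n) := Nat.mul_le_mul h3 h2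
      _ = 2 ^ (u + 1 + u * Nat.primeCounting n) := by
          rw [hn, ← pow_mul, ← pow_add]
  have h5 := (Nat.pow_le_pow_iff_right (by norm_num : 1 < 2)).mp h4
  omega

theorem card_divisors_prod_primes' (M : Finset ℕ) (hM : ∀ p ∈ M, p.Prime) :
    (∏ p ∈ M, p).divisors.card = 2 ^ M.card := by
  induction M using Finset.induction_on with
  | empty => simp
  | @insert q M hq ih =>
    have hM' : ∀ p ∈ M, p.Prime := fun p hp => hM p (Finset.mem_insert_of_mem hp)
    have hqp : q.Prime := hM q (Finset.mem_insert_self q M)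
    have hcop : Nat.Coprime q (∏ p ∈ M, p) := by
      refine Nat.Coprime.prod_right fun p hp => ?_
      exact (Nat.coprime_primes hqp (hM' p hp)).mpr (fun h => hq (h ▸ hp))
    rw [Finset.prod_insert hq, Nat.Coprime.card_divisors_mul hcop, ih hM',
      Finset.card_insert_of_notMem hq, hqp.divisors, pow_succ,
      Finset.card_pair hqp.one_lt.ne]
    ring

/-- Starting point: a product of `2 ^ k` distinct odd primes, each at most `2 ^ (2 k + 4)`. -/
theorem exists_base' (k : ℕ) (hk : 1 ≤ k) :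
    ∃ Q : ℕ, Odd Q ∧ 2 ^ (2 ^ k) ≤ Q.divisors.card ∧ 2 * Q ≤ 2 ^ (48 * k * 2 ^ k) := by
  set u := 2 * k + 4 with hu
  set P := (Nat.primesLE (2 ^ u)).erase 2 with hP
  have hk2 : k + 1 ≤ 2 ^ k := Nat.lt_two_pow_self
  have hpi : 2 ^ k + 1 ≤ Nat.primeCounting (2 ^ u) := by
    by_contra hcon
    have h1 : Nat.primeCounting (2 ^ u) ≤ 2 ^ k := by omega
    have h2 := primeCounting_two_pow' u
    have h3 : u * Nat.primeCounting (2 ^ u) ≤ u * 2 ^ k := Nat.mul_le_mul_left u h1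
    have h4 : 2 ^ u = 16 * (2 ^ k * 2 ^ k) := by
      rw [hu, pow_add, two_mul, pow_add]; ring
    have h5 : (k + 1) * 2 ^ k ≤ 2 ^ k * 2 ^ k := Nat.mul_le_mul_right _ hk2
    rw [hu] at h3
    nlinarith
  have hPcard : 2 ^ k ≤ P.card := by
    have h1 : (Nat.primesLE (2 ^ u)).card - 1 ≤ P.card := Finset.pred_card_le_card_erase
    rw [Nat.primesLE_card_eq_primeCounting] at h1
    omega
  obtain ⟨M, hMP, hMc⟩ := Finset.exists_subset_card_eq hPcard
  have hMprime : ∀ p ∈ M, p.Prime := fun p hp =>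
    Nat.prime_of_mem_primesLE (Finset.mem_of_mem_erase (hMP hp))
  have hMle : ∀ p ∈ M, p ≤ 2 ^ u := fun p hp =>
    Nat.le_of_mem_primesLE (Finset.mem_of_mem_erase (hMP hp))
  have hMne : ∀ p ∈ M, p ≠ 2 := fun p hp => Finset.ne_of_mem_erase (hMP hp)
  refine ⟨∏ p ∈ M, p, ?_, ?_, ?_⟩
  · exact Finset.prod_induction _ Odd (fun a b ha hb => ha.mul hb) odd_one
      (fun p hp => (hMprime p hp).odd_of_ne_two (hMne p hp))
  · rw [card_divisors_prod_primes' M hMprime, hMc]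
  · have h1 : ∏ p ∈ M, p ≤ (2 ^ u) ^ (2 ^ k) := by
      rw [← hMc, ← Finset.prod_const]
      exact Finset.prod_le_prod' hMle
    have h2 : 2 * (2 ^ u) ^ (2 ^ k) = 2 ^ (u * 2 ^ k + 1) := by
      rw [← pow_mul, pow_succ]; ring
    calc 2 * ∏ p ∈ M, p ≤ 2 * (2 ^ u) ^ (2 ^ k) := Nat.mul_le_mul_left 2 h1
      _ = 2 ^ (u * 2 ^ k + 1) := h2
      _ ≤ 2 ^ (48 * k * 2 ^ k) := by
          refine Nat.pow_le_pow_right (by norm_num) ?_
          have h3 : 1 ≤ 2 ^ k := Nat.one_le_two_pow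
          rw [hu]
          nlinarith

end Vale.Agent.P012
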