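import Vale.Agent.P012.Egyptian
import Vale.Agent.P012.Epoch

namespace Vale.Agent.P012

/-- Auxiliary: for `b ≥ 16` there is `k ≥ 12` with `b ≤ 2 ^ 2 ^ k` and `k ≤ 12 log log b`. -/
theorem exists_k (b : ℕ) (hb : 16 ≤ b) :
    1 ≤ Real.log (Real.log b) ∧
      ∃ k : ℕ, 12 ≤ k ∧ b ≤ 2 ^ (2 ^ k) ∧ (k : ℝ) ≤ 12 * Real.log (Real.log b) := by
  have hl2 : (0.6931471803 : ℝ) < Real.log 2 := Real.log_two_gt_d9
  have he : Real.exp 1 < 2.7182818286 := Real.exp_one_lt_d9
  have hb' : (16 : ℝ) ≤ b := by exact_mod_cast hb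
  have hlog16 : Real.log 16 = 4 * Real.log 2 := by
    rw [show (16 : ℝ) = 2 ^ 4 by norm_num, Real.log_pow]; norm_num
  have hlb : 4 * Real.log 2 ≤ Real.log b := by
    rw [← hlog16]; exact Real.log_le_log (by norm_num) hb'
  have hlb_e : Real.exp 1 ≤ Real.log b := by linarith
  have hlbpos : 0 < Real.log b := lt_of_lt_of_le (Real.exp_pos 1) hlb_e
  set x := Real.log (Real.log b) with hx
  have hx1 : 1 ≤ x := by
    rw [hx, Real.le_log_iff_exp_le hlbpos]; exact hlb_e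
  refine ⟨hx1, ?_⟩
  set L := Nat.clog 2 b with hL
  set k' := Nat.clog 2 L with hk'
  have h1 : b ≤ 2 ^ L := Nat.le_pow_clog (by norm_num) b
  have h2 : L ≤ 2 ^ k' := Nat.le_pow_clog (by norm_num) L
  refine ⟨max 12 k', le_max_left _ _, ?_, ?_⟩
  · calc b ≤ 2 ^ L := h1
      _ ≤ 2 ^ (2 ^ k') := Nat.pow_le_pow_right (by norm_num) h2
      _ ≤ 2 ^ (2 ^ (max 12 k')) :=
        Nat.pow_le_pow_right (by norm_num) (Nat.pow_le_pow_right (by norm_num) (le_max_right _ _))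
  · -- bound on `L`
    have hL4 : 4 ≤ L := by
      by_contra hcon
      have : L ≤ 3 := by omega
      have : 2 ^ L ≤ 2 ^ 3 := Nat.pow_le_pow_right (by norm_num) this
      omega
    have h3 : 2 ^ (L - 1) < b := by
      have := Nat.pow_pred_clog_lt_self (b := 2) (by norm_num) (show 1 < b by omega)
      simpa [Nat.pred_eq_sub_one] using this
    have h3' : ((L : ℝ) - 1) * Real.log 2 < Real.log b := by
      have h4 : ((2 : ℝ) ^ (L - 1)) < b := by exact_mod_cast h3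
      have h5 := Real.log_lt_log (by positivity) h4
      rw [Real.log_pow] at h5
      have h6 : ((L - 1 : ℕ) : ℝ) = (L : ℝ) - 1 := by
        rw [Nat.cast_sub (by omega)]; simp
      rwa [h6] at h5
    have hLpos : (0 : ℝ) < L := by
      have : (4 : ℝ) ≤ L := by exact_mod_cast hL4
      linarith
    -- `L ≤ e * log b`
    have hLle : (L : ℝ) ≤ Real.exp 1 * Real.log b := by
      have h7 : (L : ℝ) * Real.log 2 < Real.log b + Real.log 2 := by linarith
      have h8 : Real.log 2 ≤ Real.log b / 4 := by linarith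
      have h9 : (L : ℝ) * 0.6931471803 ≤ (L : ℝ) * Real.log 2 :=
        mul_le_mul_of_nonneg_left hl2.le hLpos.le
      have h10 : (2 : ℝ) < Real.exp 1 := by
        have := Real.add_one_lt_exp (show (1 : ℝ) ≠ 0 by norm_num)
        linarith
      nlinarith
    have hlogL : Real.log L ≤ 1 + x := by
      have := Real.log_le_log hLpos hLle
      rwa [Real.log_mul (Real.exp_pos 1).ne' hlbpos.ne', Real.log_exp] at this
    have h11 : 2 ^ (k' - 1) < L := by
      have := Nat.pow_pred_clog_lt_self (b := 2) (by norm_num) (show 1 < L by omega)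
      simpa [Nat.pred_eq_sub_one] using this
    have hk'1 : 1 ≤ k' := by
      by_contra hcon
      have h0 : k' = 0 := by omega
      rw [h0] at h2
      omega
    have h12 : ((k' : ℝ) - 1) * Real.log 2 < Real.log L := by
      have h4 : ((2 : ℝ) ^ (k' - 1)) < L := by exact_mod_cast h11
      have h5 := Real.log_lt_log (by positivity) h4
      rw [Real.log_pow] at h5
      have h6 : ((k' - 1 : ℕ) : ℝ) = (k' : ℝ) - 1 := by
        rw [Nat.cast_sub hk'1]; simp
      rwa [h6] at h5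
    have hk'x : (k' : ℝ) ≤ 12 * x := by
      have hk'0 : (0 : ℝ) ≤ (k' : ℝ) - 1 := by
        have : (1 : ℝ) ≤ k' := by exact_mod_cast hk'1
        linarith
      have h13 : ((k' : ℝ) - 1) * 0.6931471803 ≤ ((k' : ℝ) - 1) * Real.log 2 :=
        mul_le_mul_of_nonneg_left hl2.le hk'0
      nlinarith
    rw [Nat.cast_max]
    exact max_le (by push_cast; linarith) hk'x

theorem final : ∃ C : ℝ, ∃ b₀ : ℕ, ∀ b : ℕ, b₀ ≤ b → ∀ a : ℕ, 1 ≤ a → a < b →
    ∃ S : Finset ℕ, (∀ n ∈ S, 2 ≤ n) ∧ (S.card : ℝ) ≤ C * (Real.log (Real.log b)) ^ 2 ∧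
      ∑ n ∈ S, (1 : ℚ) / n = a / b := by
  obtain ⟨h0, hmain⟩ := main_rep
  refine ⟨2 * h0 + 768 * 144, 16, fun b hb a ha hab => ?_⟩
  obtain ⟨hx1, k, hk12, hbk, hkx⟩ := exists_k b hb
  obtain ⟨N, hN, hrep⟩ := hmain k hk12
  obtain ⟨S, hS2, hScard, hSsum⟩ := egyptian_of_rep hrep (hbk.trans hN) ha hab
  refine ⟨S, hS2, ?_, hSsum⟩
  set x := Real.log (Real.log b) with hx
  have hk0 : (0 : ℝ) ≤ k := Nat.cast_nonneg k
  have hk2 : (k : ℝ) ^ 2 ≤ 144 * x ^ 2 := by nlinarith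
  have hx2 : 1 ≤ x ^ 2 := by nlinarith
  have hh0 : (0 : ℝ) ≤ h0 := Nat.cast_nonneg h0
  calc (S.card : ℝ) ≤ ((2 * (h0 + 384 * k ^ 2) : ℕ) : ℝ) := by exact_mod_cast hScard
    _ = 2 * h0 + 768 * (k : ℝ) ^ 2 := by push_cast; ring
    _ ≤ 2 * h0 * x ^ 2 + 768 * (144 * x ^ 2) := by nlinarith
    _ = (2 * h0 + 768 * 144) * x ^ 2 := by ring

end Vale.Agent.P012
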