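import Vale.Agent.P012.ArithB

namespace Vale.Agent.P012

open Finset

/-- The iterated binary logarithm is at most `1 + (1 + log log b) / log 2`. -/
theorem clog_clog_lt (b : ℕ) (hb : 16 ≤ b) :
    ((Nat.clog 2 (Nat.clog 2 b) : ℝ) - 1) * Real.log 2 < 1 + Real.log (Real.log b) := by
  have hl2 : (0.6931471803 : ℝ) < Real.log 2 := Real.log_two_gt_d9
  have he : Real.exp 1 < 2.7182818286 := Real.exp_one_lt_d9
  have hb' : (16 : ℝ) ≤ b := by exact_mod_cast hb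
  have hlog16 : Real.log 16 = 4 * Real.log 2 := by
    rw [show (16 : ℝ) = 2 ^ 4 by norm_num, Real.log_pow]; norm_num
  have hlb : 4 * Real.log 2 ≤ Real.log b := by
    rw [← hlog16]; exact Real.log_le_log (by norm_num) hb'
  have hlb_e : Real.exp 1 ≤ Real.log b := by linarith
  have hlbpos : 0 < Real.log b := lt_of_lt_of_le (Real.exp_pos 1) hlb_e
  obtain ⟨L, hL⟩ : ∃ L, L = Nat.clog 2 b := ⟨_, rfl⟩
  obtain ⟨k', hk'⟩ : ∃ k', k' = Nat.clog 2 L := ⟨_, rfl⟩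
  rw [← hL, ← hk']
  have h1 : b ≤ 2 ^ L := by rw [hL]; exact Nat.le_pow_clog (by norm_num) b
  have h2 : L ≤ 2 ^ k' := by rw [hk']; exact Nat.le_pow_clog (by norm_num) L
  have hL4 : 4 ≤ L := by
    by_contra hcon
    have : L ≤ 3 := by omega
    have : 2 ^ L ≤ 2 ^ 3 := Nat.pow_le_pow_right (by norm_num) this
    omega
  have h3 : 2 ^ (L - 1) < b := by
    have := Nat.pow_pred_clog_lt_self (b := 2) (by norm_num) (show 1 < b by omega)
    rw [hL]
    simpa [Nat.pred_eq_sub_one] using this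
  have h3' : ((L : ℝ) - 1) * Real.log 2 < Real.log b := by
    have h4 : ((2 : ℝ) ^ (L - 1)) < b := by exact_mod_cast h3
    have h5 := Real.log_lt_log (by positivity) h4
    rw [Real.log_pow] at h5
    have h6 : ((L - 1 : ℕ) : ℝ) = (L : ℝ) - 1 := by
      rw [Nat.cast_sub (by omega)]; simp
    rwa [h6] at h5
  have hLpos : (0 : ℝ) < L := by
    have : (4 : ℝ) ≤ L := by exact_mod_cast hL4
    linarith
  have hLle : (L : ℝ) ≤ Real.exp 1 * Real.log b := by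
    have h7 : (L : ℝ) * Real.log 2 < Real.log b + Real.log 2 := by linarith
    have h8 : Real.log 2 ≤ Real.log b / 4 := by linarith
    have h9 : (L : ℝ) * 0.6931471803 ≤ (L : ℝ) * Real.log 2 :=
      mul_le_mul_of_nonneg_left hl2.le hLpos.le
    have h10 : (2 : ℝ) < Real.exp 1 := by
      have := Real.add_one_lt_exp (show (1 : ℝ) ≠ 0 by norm_num)
      linarith
    nlinarith
  have hlogL : Real.log L ≤ 1 + Real.log (Real.log b) := by
    have := Real.log_le_log hLpos hLle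
    rwa [Real.log_mul (Real.exp_pos 1).ne' hlbpos.ne', Real.log_exp] at this
  have h11 : 2 ^ (k' - 1) < L := by
    have := Nat.pow_pred_clog_lt_self (b := 2) (by norm_num) (show 1 < L by omega)
    rw [hk']
    simpa [Nat.pred_eq_sub_one] using this
  have hk'1 : 1 ≤ k' := by
    by_contra hcon
    have h0 : k' = 0 := by omega
    rw [h0] at h2
    omega
  have h12 : ((k' : ℝ) - 1) * Real.log 2 < Real.log L := by
    have h4 : ((2 : ℝ) ^ (k' - 1)) < L := by exact_mod_cast h11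
    have h5 := Real.log_lt_log (by positivity) h4
    rw [Real.log_pow] at h5
    have h6 : ((k' - 1 : ℕ) : ℝ) = (k' : ℝ) - 1 := by
      rw [Nat.cast_sub hk'1]; simp
    rwa [h6] at h5
  linarith

/-- Choice of `k` once `log log b` is at least `169`. -/
theorem exists_kB_aux (b : ℕ) (hb : 16 ≤ b) (hx : 169 ≤ Real.log (Real.log b)) :
    ∃ k : ℕ, 26 ≤ k ∧ b ≤ 2 ^ (2 ^ k ^ 2) ∧ ((k : ℝ) ^ 2) ≤ 4 * Real.log (Real.log b) := by
  have hl2 : (0.6931471803 : ℝ) < Real.log 2 := Real.log_two_gt_d9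
  have hkey := clog_clog_lt b hb
  obtain ⟨x, hxdef⟩ : ∃ x, x = Real.log (Real.log b) := ⟨_, rfl⟩
  rw [← hxdef] at hkey hx ⊢
  obtain ⟨j, hj⟩ : ∃ j, j = Nat.clog 2 (Nat.clog 2 b) := ⟨_, rfl⟩
  rw [← hj] at hkey
  have h1 : b ≤ 2 ^ (2 ^ j) := by
    calc b ≤ 2 ^ (Nat.clog 2 b) := Nat.le_pow_clog (by norm_num) b
      _ ≤ 2 ^ (2 ^ j) := by
          apply Nat.pow_le_pow_right (by norm_num)
          rw [hj]
          exact Nat.le_pow_clog (by norm_num) _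
  have hjx : (j : ℝ) ≤ 3 + 3 / 2 * x := by
    by_contra hcon
    push Not at hcon
    have h2 : (0 : ℝ) ≤ (j : ℝ) - 1 := by linarith
    have h3 : ((j : ℝ) - 1) * 0.6931471803 ≤ ((j : ℝ) - 1) * Real.log 2 :=
      mul_le_mul_of_nonneg_left hl2.le h2
    nlinarith
  obtain ⟨s, hs⟩ : ∃ s, s = Nat.sqrt j := ⟨_, rfl⟩
  have hs1 : s * s ≤ j := by rw [hs]; exact Nat.sqrt_le j
  have hs2 : j < (s + 1) * (s + 1) := by rw [hs]; exact Nat.lt_succ_sqrt j
  refine ⟨max 26 (s + 1), le_max_left _ _, ?_, ?_⟩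
  · have h4 : j ≤ (max 26 (s + 1)) ^ 2 := by
      calc j ≤ (s + 1) * (s + 1) := hs2.le
        _ = (s + 1) ^ 2 := by ring
        _ ≤ (max 26 (s + 1)) ^ 2 := Nat.pow_le_pow_left (le_max_right _ _) 2
    calc b ≤ 2 ^ (2 ^ j) := h1
      _ ≤ 2 ^ (2 ^ (max 26 (s + 1)) ^ 2) :=
        Nat.pow_le_pow_right (by norm_num) (Nat.pow_le_pow_right (by norm_num) h4)
  · have hs1' : (s : ℝ) * s ≤ j := by exact_mod_cast hs1
    have h5 : ((s : ℝ) + 1) ^ 2 ≤ 4 * x := by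
      have h6 : 0 ≤ ((s : ℝ) - 2) ^ 2 := sq_nonneg _
      nlinarith
    rcases le_total 26 (s + 1) with h | h
    · rw [max_eq_right h]
      push_cast
      exact h5
    · rw [max_eq_left h]
      push_cast
      linarith

/-- Choice of `k` for a given large `b`. -/
theorem exists_kB : ∃ b₀ : ℕ, ∀ b : ℕ, b₀ ≤ b →
    1 ≤ Real.log (Real.log (Real.log b)) ∧
      ∃ k : ℕ, 26 ≤ k ∧ b ≤ 2 ^ (2 ^ k ^ 2) ∧ ((k : ℝ) ^ 2) ≤ 4 * Real.log (Real.log b) := by
  have hlim : Filter.Tendsto (fun b : ℕ => Real.log (Real.log (b : ℝ))) Filter.atTop Filter.atTop :=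
    Real.tendsto_log_atTop.comp (Real.tendsto_log_atTop.comp tendsto_natCast_atTop_atTop)
  obtain ⟨b₁, hb₁⟩ := Filter.eventually_atTop.mp (hlim.eventually_ge_atTop 169)
  refine ⟨max 16 b₁, fun b hb => ?_⟩
  have h16 : 16 ≤ b := (le_max_left _ _).trans hb
  have hx : 169 ≤ Real.log (Real.log b) := hb₁ b ((le_max_right _ _).trans hb)
  refine ⟨?_, exists_kB_aux b h16 hx⟩
  have he : Real.exp 1 < 2.7182818286 := Real.exp_one_lt_d9
  rw [Real.le_log_iff_exp_le (by linarith)]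
  linarith

theorem finalB : ∃ C : ℝ, ∃ b₀ : ℕ, ∀ b : ℕ, b₀ ≤ b → ∀ a : ℕ, 1 ≤ a → a < b →
    ∃ S : Finset ℕ, (∀ n ∈ S, 2 ≤ n) ∧
      (S.card : ℝ) ≤ C * (Real.log (Real.log b) * Real.log (Real.log (Real.log b))) ∧
      ∑ n ∈ S, (1 : ℚ) / n = a / b := by
  obtain ⟨h0, hmain⟩ := main_egyptianB
  obtain ⟨b₀, hb₀⟩ := exists_kB
  refine ⟨h0 + 6400, b₀, fun b hb a ha hab => ?_⟩
  obtain ⟨hy1, k, hk26, hbk, hkx⟩ := hb₀ b hb
  obtain ⟨S, hS2, hScard, hSsum⟩ := hmain k hk26 a b ha hab hbk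
  refine ⟨S, hS2, ?_, hSsum⟩
  obtain ⟨x, hxdef⟩ : ∃ x, x = Real.log (Real.log b) := ⟨_, rfl⟩
  rw [← hxdef] at hy1 hkx ⊢
  obtain ⟨y, hydef⟩ : ∃ y, y = Real.log x := ⟨_, rfl⟩
  rw [← hydef] at hy1 ⊢
  have hκ1 : 1 ≤ k ^ 2 := Nat.one_le_pow _ _ (by omega)
  have hcost := costB_le (k ^ 2) hκ1
  obtain ⟨κ, hκdef⟩ : ∃ κ : ℝ, κ = ((k ^ 2 : ℕ) : ℝ) := ⟨_, rfl⟩
  rw [← hκdef] at hcost
  have hκx : κ ≤ 4 * x := by rw [hκdef]; push_cast; exact hkx
  have hκ1' : 1 ≤ κ := by rw [hκdef]; exact_mod_cast hκ1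
  have hx1 : 1 ≤ x := by
    by_contra hcon
    push Not at hcon
    have : Real.log x ≤ 0 := Real.log_nonpos (by linarith) hcon.le
    rw [← hydef] at this
    linarith
  have hlogκ : Real.log κ ≤ 2 + y := by
    have h1 : Real.log κ ≤ Real.log (4 * x) := Real.log_le_log (by linarith) hκx
    rw [Real.log_mul (by norm_num) (by linarith), ← hydef] at h1
    have h2 : Real.log 4 = 2 * Real.log 2 := by
      rw [show (4 : ℝ) = 2 ^ 2 by norm_num, Real.log_pow]; norm_num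
    have h3 : Real.log 2 < 0.6931471808 := Real.log_two_lt_d9
    linarith
  have hcost2 : (costB (k ^ 2) 0 (k ^ 2) : ℝ) ≤ 100 * (x * y) := by
    have h1 : 1 + Real.log κ ≤ 4 * y := by linarith
    have h2 : 4 * κ + 8 ≤ 24 * x := by linarith
    have h3 : (4 * κ + 8) * (1 + Real.log κ) ≤ 24 * x * (4 * y) :=
      mul_le_mul h2 h1 (by
        have : 0 ≤ Real.log κ := Real.log_nonneg hκ1'
        linarith) (by linarith)
    have h4 : x ≤ x * y := le_mul_of_one_le_right (by linarith) hy1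
    calc (costB (k ^ 2) 0 (k ^ 2) : ℝ) ≤ (4 * κ + 8) * (1 + Real.log κ) + κ := hcost
      _ ≤ 24 * x * (4 * y) + 4 * x := by linarith
      _ ≤ 100 * (x * y) := by linarith
  have hxy : 1 ≤ x * y := by
    calc (1 : ℝ) = 1 * 1 := by ring
      _ ≤ x * y := mul_le_mul hx1 hy1 (by norm_num) (by linarith)
  have hx_xy : x ≤ x * y := le_mul_of_one_le_right (by linarith) hy1
  have hh0 : (0 : ℝ) ≤ h0 := Nat.cast_nonneg h0
  calc (S.card : ℝ) ≤ ((h0 + 1200 * k ^ 2 + 16 * costB (k ^ 2) 0 (k ^ 2) : ℕ) : ℝ) := by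
        exact_mod_cast hScard
    _ = h0 + 1200 * κ + 16 * (costB (k ^ 2) 0 (k ^ 2) : ℝ) := by rw [hκdef]; push_cast; ring
    _ ≤ h0 * (x * y) + 1200 * (4 * (x * y)) + 16 * (100 * (x * y)) := by
        have h1 : (h0 : ℝ) ≤ h0 * (x * y) := le_mul_of_one_le_right hh0 hxy
        linarith
    _ = (h0 + 6400) * (x * y) := by ring

end Vale.Agent.P012
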