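import Mathlib

namespace Vale.Agent.P012

open Finset

/-- Distinct primes dividing a nonzero integer of absolute value `< 2 ^ l` number at most `l`. -/
theorem card_prime_divisors_le (Q : Finset ℕ) (hQ : ∀ p ∈ Q, p.Prime) (d : ℤ) (l : ℕ)
    (hd0 : d ≠ 0) (hd : |d| < 2 ^ l) : (Q.filter (fun p : ℕ => (p : ℤ) ∣ d)).card ≤ l := by
  set R := Q.filter (fun p : ℕ => (p : ℤ) ∣ d) with hR
  have hprime : ∀ p ∈ R, Prime p := fun p hp => (hQ p (Finset.mem_filter.mp hp).1).prime
  have hdvd : ∀ p ∈ R, p ∣ d.natAbs := fun p hp =>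
    Int.natCast_dvd.mp (Finset.mem_filter.mp hp).2
  have h1 : ∏ p ∈ R, p ∣ d.natAbs := Finset.prod_primes_dvd d.natAbs hprime hdvd
  have h2 : ∏ p ∈ R, p ≤ d.natAbs := Nat.le_of_dvd (Int.natAbs_pos.mpr hd0) h1
  have h3 : 2 ^ R.card ≤ ∏ p ∈ R, p := by
    rw [← Finset.prod_const]
    exact Finset.prod_le_prod' fun p hp => (hQ p (Finset.mem_filter.mp hp).1).two_le
  have h4 : d.natAbs < 2 ^ l := by
    have : ((d.natAbs : ℤ)) < 2 ^ l := by rwa [Int.natCast_natAbs]
    exact_mod_cast this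
  have h5 : 2 ^ R.card < 2 ^ l := lt_of_le_of_lt (h3.trans h2) h4
  exact ((Nat.pow_lt_pow_iff_right (by norm_num)).mp h5).le

theorem exists_good_primes {I0 : Type*} (I : Finset I0) (D : I0 → ℤ) (l : ℕ)
    (hD0 : ∀ i ∈ I, D i ≠ 0) (hD : ∀ i ∈ I, |D i| < 2 ^ l) (P : Finset ℕ)
    (hP : ∀ p ∈ P, p.Prime) (lam : ℝ) (hlam : 0 ≤ lam) (P0 s : ℕ) (hP0 : 0 < P0)
    (hcard : P0 + s ≤ P.card) :
    ∃ M, M ⊆ P ∧ M.card = s ∧
      ∑ i ∈ I, (1 + lam) ^ ((M.filter (fun p : ℕ => (p : ℤ) ∣ D i)).card) ≤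
        (1 + lam * l / P0) ^ s * I.card := by
  induction s with
  | zero => exact ⟨∅, by simp, by simp, by simp⟩
  | succ s ih =>
    obtain ⟨M, hMP, hMc, hM⟩ := ih (by omega)
    set Φ : Finset ℕ → ℝ := fun M => ∑ i ∈ I, (1 + lam) ^ ((M.filter (fun p : ℕ => (p : ℤ) ∣ D i)).card)
      with hΦ
    set Q := P \ M with hQ
    have hQc : Q.card = P.card - s := by rw [hQ, Finset.card_sdiff_of_subset hMP, hMc]
    have hQpos : P0 ≤ Q.card := by omega
    have hQne : Q.Nonempty := Finset.card_pos.mp (by omega)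
    have hP0' : (0 : ℝ) < P0 := by exact_mod_cast hP0
    have hQc' : (0 : ℝ) < Q.card := lt_of_lt_of_le hP0' (by exact_mod_cast hQpos)
    have hΦnn : 0 ≤ Φ M := Finset.sum_nonneg fun i _ => pow_nonneg (by linarith) _
    -- the key averaging computation
    have hterm : ∀ i ∈ I, ∑ p ∈ Q, (1 + lam) ^ (((insert p M).filter (fun p : ℕ => (p : ℤ) ∣ D i)).card)
        ≤ (1 + lam) ^ ((M.filter (fun p : ℕ => (p : ℤ) ∣ D i)).card) * (Q.card + lam * l) := by
      intro i hi
      have h1 : ∀ p ∈ Q, (1 + lam) ^ (((insert p M).filter (fun p : ℕ => (p : ℤ) ∣ D i)).card)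
          = (1 + lam) ^ ((M.filter (fun p : ℕ => (p : ℤ) ∣ D i)).card) *
            (1 + if (p : ℤ) ∣ D i then lam else 0) := by
        intro p hp
        have hpM : p ∉ M := (Finset.mem_sdiff.mp hp).2
        by_cases hdiv : (p : ℤ) ∣ D i
        · rw [Finset.filter_insert, if_pos hdiv, Finset.card_insert_of_notMem
            (fun h => hpM (Finset.mem_filter.mp h).1), if_pos hdiv, pow_succ]
        · rw [Finset.filter_insert, if_neg hdiv, if_neg hdiv, add_zero, mul_one]
      rw [Finset.sum_congr rfl h1, ← Finset.mul_sum]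
      refine mul_le_mul_of_nonneg_left ?_ (pow_nonneg (by linarith) _)
      rw [Finset.sum_add_distrib, Finset.sum_const, nsmul_eq_mul, mul_one, ← Finset.sum_filter,
        Finset.sum_const, nsmul_eq_mul]
      have h2 : (Q.filter (fun p : ℕ => (p : ℤ) ∣ D i)).card ≤ l :=
        card_prime_divisors_le Q (fun p hp => hP p (Finset.mem_sdiff.mp hp).1) (D i) l
          (hD0 i hi) (hD i hi)
      have h3 : ((Q.filter (fun p : ℕ => (p : ℤ) ∣ D i)).card : ℝ) ≤ l := by exact_mod_cast h2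
      nlinarith
    have hsum : ∑ p ∈ Q, Φ (insert p M) ≤ (Q.card + lam * l) * Φ M := by
      simp only [hΦ]
      rw [Finset.sum_comm, Finset.mul_sum]
      refine Finset.sum_le_sum fun i hi => ?_
      rw [mul_comm]
      exact hterm i hi
    -- pick a prime at most the average
    obtain ⟨p, hpQ, hp⟩ : ∃ p ∈ Q, Φ (insert p M) ≤ (1 + lam * l / Q.card) * Φ M := by
      by_contra hcon
      push Not at hcon
      have : ∑ p ∈ Q, (1 + lam * l / Q.card) * Φ M < ∑ p ∈ Q, Φ (insert p M) :=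
        Finset.sum_lt_sum_of_nonempty hQne hcon
      rw [Finset.sum_const, nsmul_eq_mul] at this
      have h5 : (Q.card : ℝ) * ((1 + lam * l / Q.card) * Φ M) = (Q.card + lam * l) * Φ M := by
        field_simp
      linarith
    have hpM : p ∉ M := (Finset.mem_sdiff.mp hpQ).2
    refine ⟨insert p M, Finset.insert_subset (Finset.mem_sdiff.mp hpQ).1 hMP, by
      rw [Finset.card_insert_of_notMem hpM, hMc], ?_⟩
    have h6 : lam * l / Q.card ≤ lam * l / P0 :=
      div_le_div_of_nonneg_left (by positivity) hP0' (by exact_mod_cast hQpos)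
    calc Φ (insert p M) ≤ (1 + lam * l / Q.card) * Φ M := hp
      _ ≤ (1 + lam * l / P0) * Φ M := by
          exact mul_le_mul_of_nonneg_right (by linarith) hΦnn
      _ ≤ (1 + lam * l / P0) * ((1 + lam * l / P0) ^ s * I.card) := by
          exact mul_le_mul_of_nonneg_left hM (by positivity)
      _ = (1 + lam * l / P0) ^ (s + 1) * I.card := by ring

end Vale.Agent.P012
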