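import Vale.Agent.P012.BaseB

namespace Vale.Agent.P012

open Finset

/-- `i` bounded stages with a fixed set `A`. -/
theorem stagesB {e ℓ s t Z : ℕ} (he : 4 ≤ e) (hs : 1 ≤ s) (A : Finset ℕ)
    (hAZ : ∀ a ∈ A, a ≤ Z) (H2 : 2 ^ (7 * t * s) ≤ A.card) (H3 : 512 * s ≤ 2 ^ (4 * t))
    (H4 : 2 ^ (4 * t) + ℓ + s + s * ℓ * 2 ^ (7 * t) ≤ Nat.primeCounting (2 ^ (8 * t))) (i : ℕ)
    {Q X h L : ℕ} (hQ : Odd Q) (hAQ : A ⊆ Q.divisors) (hZ : 15 * Z ^ 2 ≤ X)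
    (hsz : 2 * Q ≤ 2 ^ L) (hL : L + i * (8 * t * s) ≤ ℓ) (hrep : RepB (2 ^ e * Q ^ 2) X h) :
    ∃ ν : ℕ, Odd (Q * ν) ∧ 2 ^ (i * (4 * t * s)) ≤ ν ∧ ν ≤ 2 ^ (i * (8 * t * s)) ∧
      RepB (2 ^ e * (Q * ν) ^ 2) (X * ν ^ 2) (h + 8 * i) := by
  induction i with
  | zero => exact ⟨1, by simpa using hQ, by simp, by simp, by simpa using hrep⟩
  | succ i ih =>
    have hL' : L + i * (8 * t * s) ≤ ℓ := by
      have : i * (8 * t * s) ≤ (i + 1) * (8 * t * s) := Nat.mul_le_mul_right _ (by omega)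
      omega
    obtain ⟨ν, hodd, hlo, hhi, hrep1⟩ := ih hL'
    have hνpos : 1 ≤ ν := le_trans Nat.one_le_two_pow hlo
    have hQν0 : Q * ν ≠ 0 := hodd.pos.ne'
    have H1 : 2 * (Q * ν) ≤ 2 ^ ℓ := by
      calc 2 * (Q * ν) = (2 * Q) * ν := by ring
        _ ≤ 2 ^ L * 2 ^ (i * (8 * t * s)) := Nat.mul_le_mul hsz hhi
        _ = 2 ^ (L + i * (8 * t * s)) := by rw [← pow_add]
        _ ≤ 2 ^ ℓ := Nat.pow_le_pow_right (by norm_num) hL'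
    have hAQ' : A ⊆ (Q * ν).divisors :=
      hAQ.trans (Nat.divisors_subset_of_dvd hQν0 (Dvd.intro ν rfl))
    have hZ' : 15 * Z ^ 2 ≤ X * ν ^ 2 := by
      have : 1 ≤ ν ^ 2 := Nat.one_le_pow _ _ hνpos
      calc 15 * Z ^ 2 ≤ X := hZ
        _ = X * 1 := by ring
        _ ≤ X * ν ^ 2 := Nat.mul_le_mul_left _ this
    obtain ⟨μ, h1, h2, h3, h4⟩ := stageB he hodd hrep1 hs H1 A hAQ' hAZ hZ' H2 H3 H4
    refine ⟨ν * μ, ?_, ?_, ?_, ?_⟩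
    · rw [← mul_assoc]; exact h1
    · calc 2 ^ ((i + 1) * (4 * t * s)) = 2 ^ (i * (4 * t * s)) * 2 ^ (4 * t * s) := by
            rw [← pow_add]
            congr 1
            ring
        _ ≤ ν * μ := Nat.mul_le_mul hlo h2
    · calc ν * μ ≤ 2 ^ (i * (8 * t * s)) * 2 ^ (8 * t * s) := Nat.mul_le_mul hhi h3
        _ = 2 ^ ((i + 1) * (8 * t * s)) := by
            rw [← pow_add]
            congr 1
            ring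
    · have e1 : h + 8 * (i + 1) = h + 8 * i + 8 := by ring
      have e2 : Q * (ν * μ) = Q * ν * μ := by ring
      have e3 : X * (ν * μ) ^ 2 = X * ν ^ 2 * μ ^ 2 := by ring
      rw [e1, e2, e3]
      exact h4

/-- `i` stages at level `σ` (`A` = products of `2 ^ (κ - σ)` reservoir primes, `t = 2 ^ r`,
`s = σ * 2 ^ (κ - σ - r - 3)`, so that `8 t s = σ * 2 ^ (κ - σ)`). The state is `P`:
every `n < 2 ^ e * P ^ 2` is a sum of at most `h` distinct divisors of `2 ^ e * (Q0 * P) ^ 2`. -/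
theorem levelB {e κ r σ ℓ : ℕ} (he : 4 ≤ e) (hσ1 : 1 ≤ σ) (hσ : σ + r + 3 ≤ κ)
    (R : Finset ℕ) (hRc : R.card = 2 ^ κ) (hR : ∀ p ∈ R, p.Prime ∧ p ≠ 2 ∧ p ≤ 2 ^ (2 * κ + 4))
    (H3 : 512 * (κ * 2 ^ κ) ≤ 2 ^ (4 * 2 ^ r))
    (H4 : 2 ^ (4 * 2 ^ r) + ℓ + κ * 2 ^ κ + κ * 2 ^ κ * ℓ * 2 ^ (7 * 2 ^ r) ≤
      Nat.primeCounting (2 ^ (8 * 2 ^ r))) (i : ℕ)
    {P h U : ℕ} (hodd : Odd ((∏ p ∈ R, p) * P)) (hlo : 2 ^ ((2 * κ + 4) * 2 ^ (κ - σ)) ≤ P)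
    (hhi : 2 * ((∏ p ∈ R, p) * P) ≤ 2 ^ U) (hU : U + i * (σ * 2 ^ (κ - σ)) ≤ ℓ)
    (hrep : RepB (2 ^ e * ((∏ p ∈ R, p) * P) ^ 2) (2 ^ e * P ^ 2) h) :
    ∃ P' : ℕ, Odd ((∏ p ∈ R, p) * P') ∧ P * 2 ^ (i * (σ * 2 ^ (κ - σ - 1))) ≤ P' ∧
      2 * ((∏ p ∈ R, p) * P') ≤ 2 ^ (U + i * (σ * 2 ^ (κ - σ))) ∧
      RepB (2 ^ e * ((∏ p ∈ R, p) * P') ^ 2) (2 ^ e * P' ^ 2) (h + 8 * i) := by
  set Q0 : ℕ := ∏ p ∈ R, p with hQ0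
  obtain ⟨A, hA1, hA2, hA3⟩ := exists_A R (fun p hp => (hR p hp).1) κ σ (2 * κ + 4) (by omega) hRc
    (fun p hp => (hR p hp).2.2)
  set t : ℕ := 2 ^ r with ht
  set s : ℕ := σ * 2 ^ (κ - σ - r - 3) with hs
  set Z : ℕ := 2 ^ ((2 * κ + 4) * 2 ^ (κ - σ)) with hZdef
  have h8 : 8 * t * s = σ * 2 ^ (κ - σ) := by
    have e1 : κ - σ = 3 + r + (κ - σ - r - 3) := by omega
    rw [hs, ht]
    conv_rhs => rw [e1, pow_add, pow_add]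
    ring
  have h4 : 4 * t * s = σ * 2 ^ (κ - σ - 1) := by
    have e1 : κ - σ - 1 = 2 + r + (κ - σ - r - 3) := by omega
    rw [hs, ht]
    conv_rhs => rw [e1, pow_add, pow_add]
    ring
  have hs1 : 1 ≤ s := Nat.mul_pos hσ1 (by positivity)
  have hsle : s ≤ κ * 2 ^ κ :=
    Nat.mul_le_mul (by omega) (Nat.pow_le_pow_right (by norm_num) (by omega))
  have H2' : 2 ^ (7 * t * s) ≤ A.card := by
    refine le_trans (Nat.pow_le_pow_right (by norm_num) ?_) hA3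
    rw [← h8]
    have : 7 * t * s = 7 * (t * s) := by ring
    have : 8 * t * s = 8 * (t * s) := by ring
    omega
  have H3' : 512 * s ≤ 2 ^ (4 * t) := le_trans (Nat.mul_le_mul_left _ hsle) H3
  have H4' : 2 ^ (4 * t) + ℓ + s + s * ℓ * 2 ^ (7 * t) ≤ Nat.primeCounting (2 ^ (8 * t)) := by
    refine le_trans ?_ H4
    have : s * ℓ * 2 ^ (7 * t) ≤ κ * 2 ^ κ * ℓ * 2 ^ (7 * t) :=
      Nat.mul_le_mul_right _ (Nat.mul_le_mul_right _ hsle)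
    omega
  have hQP0 : Q0 * P ≠ 0 := hodd.pos.ne'
  have hAQ : A ⊆ (Q0 * P).divisors :=
    hA1.trans (Nat.divisors_subset_of_dvd hQP0 (Dvd.intro P rfl))
  have hZ : 15 * Z ^ 2 ≤ 2 ^ e * P ^ 2 := by
    have h16 : 16 ≤ 2 ^ e := by
      calc 16 = 2 ^ 4 := by norm_num
        _ ≤ 2 ^ e := Nat.pow_le_pow_right (by norm_num) he
    have hZP : Z ^ 2 ≤ P ^ 2 := Nat.pow_le_pow_left hlo 2
    calc 15 * Z ^ 2 ≤ 16 * P ^ 2 := by omega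
      _ ≤ 2 ^ e * P ^ 2 := Nat.mul_le_mul_right _ h16
  have hL : U + i * (8 * t * s) ≤ ℓ := by rw [h8]; exact hU
  obtain ⟨ν, g1, g2, g3, g4⟩ := stagesB he hs1 A hA2 H2' H3' H4' i hodd hAQ hZ hhi hL hrep
  refine ⟨P * ν, ?_, ?_, ?_, ?_⟩
  · rw [← mul_assoc]; exact g1
  · rw [← h4]; exact Nat.mul_le_mul_left _ g2
  · calc 2 * (Q0 * (P * ν)) = (2 * (Q0 * P)) * ν := by ring
      _ ≤ 2 ^ U * 2 ^ (i * (8 * t * s)) := Nat.mul_le_mul hhi g3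
      _ = 2 ^ (U + i * (σ * 2 ^ (κ - σ))) := by rw [← pow_add, h8]
  · have e2 : Q0 * (P * ν) = Q0 * P * ν := by ring
    have e3 : 2 ^ e * (P * ν) ^ 2 = 2 ^ e * P ^ 2 * ν ^ 2 := by ring
    rw [e2, e3]
    exact g4

end Vale.Agent.P012
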