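import Vale.Agent.P012.Epoch

namespace Vale.Agent.P012

/-- `RepB N X h`: every natural number `n < X` is a sum of at most `h` distinct divisors of `N`. -/
def RepB (N X h : ℕ) : Prop :=
  ∀ n < X, ∃ D : Finset ℕ, D ⊆ N.divisors ∧ D.card ≤ h ∧ ∑ d ∈ D, d = n

theorem RepB.mono {N X h h' : ℕ} (hN : RepB N X h) (hh : h ≤ h') : RepB N X h' := by
  intro n hn
  obtain ⟨D, h1, h2, h3⟩ := hN n hn
  exact ⟨D, h1, h2.trans hh, h3⟩

theorem RepB.of_rep {N h : ℕ} (hN : Rep N h) : RepB N N h := hN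

theorem RepB.of_dvd {N N' X h : ℕ} (hN : RepB N X h) (hd : N ∣ N') (h0 : N' ≠ 0) :
    RepB N' X h := by
  intro n hn
  obtain ⟨D, h1, h2, h3⟩ := hN n hn
  exact ⟨D, h1.trans (Nat.divisors_subset_of_dvd h0 hd), h2, h3⟩

/-- The recursion step with a bounded range. -/
theorem repB_mul {N X h m c : ℕ} (hN0 : N ≠ 0) (hN : RepB N X h) (hm : 0 < m)
    (hres : ∀ n : ℕ, ∃ D : Finset ℕ, D ⊆ N.divisors ∧ D.card ≤ c ∧ ∑ d ∈ D, d ≤ X ∧
      (∑ d ∈ D, d) ≡ n [MOD m] ∧ ∀ d ∈ D, ¬ m ∣ d) :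
    RepB (N * m) (X * m) (h + c) := by
  intro n hn
  have hNm0 : N * m ≠ 0 := Nat.mul_ne_zero hN0 hm.ne'
  have hsub : N.divisors ⊆ (N * m).divisors :=
    Nat.divisors_subset_of_dvd hNm0 (Dvd.intro m rfl)
  by_cases hlt : n < X
  · obtain ⟨D, h1, h2, h3⟩ := hN n hlt
    exact ⟨D, h1.trans hsub, h2.trans (Nat.le_add_right _ _), h3⟩
  · push Not at hlt
    obtain ⟨D, hD1, hD2, hD3, hD4, hD5⟩ := hres n
    have hle : ∑ d ∈ D, d ≤ n := hD3.trans hlt
    have hdvd : m ∣ n - ∑ d ∈ D, d := (Nat.modEq_iff_dvd' hle).1 hD4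
    obtain ⟨n1, hn1⟩ := hdvd
    have hn1lt : n1 < X := by
      by_contra hge
      push Not at hge
      have : X * m ≤ m * n1 := by
        rw [mul_comm X m]
        exact Nat.mul_le_mul_left m hge
      omega
    obtain ⟨D1, hE1, hE2, hE3⟩ := hN n1 hn1lt
    have hinj : Function.Injective (fun d : ℕ => m * d) := fun a b hab =>
      Nat.eq_of_mul_eq_mul_left hm hab
    have hdisj : Disjoint D (D1.image (fun d => m * d)) := by
      rw [Finset.disjoint_left]
      intro d hd hd'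
      obtain ⟨d1, _, rfl⟩ := Finset.mem_image.1 hd'
      exact hD5 _ hd (Dvd.intro d1 rfl)
    refine ⟨D ∪ D1.image (fun d => m * d), ?_, ?_, ?_⟩
    · apply Finset.union_subset (hD1.trans hsub)
      intro d hd
      obtain ⟨d1, hd1, rfl⟩ := Finset.mem_image.1 hd
      have hd1N : d1 ∣ N := Nat.dvd_of_mem_divisors (hE1 hd1)
      rw [Nat.mem_divisors]
      refine ⟨?_, hNm0⟩
      rw [mul_comm N m]
      exact Nat.mul_dvd_mul_left m hd1N
    · rw [Finset.card_union_of_disjoint hdisj, Finset.card_image_of_injective _ hinj]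
      omega
    · rw [Finset.sum_union hdisj, Finset.sum_image (fun a _ b _ hab => hinj hab),
        ← Finset.mul_sum, hE3, ← hn1]
      omega

end Vale.Agent.P012
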