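import Vale.Agent.P012.Defs

namespace Vale.Agent.P012

theorem Rep.mono {N h h' : ℕ} (hN : Rep N h) (hh : h ≤ h') : Rep N h' := by
  intro n hn
  obtain ⟨D, h1, h2, h3⟩ := hN n hn
  exact ⟨D, h1, h2.trans hh, h3⟩

/-- The recursion step. -/
theorem rep_mul {N h m c : ℕ} (hN : Rep N h) (hm : 0 < m)
    (hres : ∀ n : ℕ, ∃ D : Finset ℕ, D ⊆ N.divisors ∧ D.card ≤ c ∧ ∑ d ∈ D, d ≤ N ∧
      (∑ d ∈ D, d) ≡ n [MOD m] ∧ ∀ d ∈ D, ¬ m ∣ d) :
    Rep (N * m) (h + c) := by
  intro n hn
  have hN0 : N ≠ 0 := by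
    rintro rfl
    simp at hn
  have hNm0 : N * m ≠ 0 := Nat.mul_ne_zero hN0 hm.ne'
  have hsub : N.divisors ⊆ (N * m).divisors :=
    Nat.divisors_subset_of_dvd hNm0 (Dvd.intro m rfl)
  by_cases hlt : n < N
  · obtain ⟨D, h1, h2, h3⟩ := hN n hlt
    exact ⟨D, h1.trans hsub, h2.trans (Nat.le_add_right _ _), h3⟩
  · push Not at hlt
    obtain ⟨D, hD1, hD2, hD3, hD4, hD5⟩ := hres n
    have hle : ∑ d ∈ D, d ≤ n := hD3.trans hlt
    have hdvd : m ∣ n - ∑ d ∈ D, d := (Nat.modEq_iff_dvd' hle).1 hD4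
    obtain ⟨n1, hn1⟩ := hdvd
    have hn1lt : n1 < N := by
      by_contra hge
      push Not at hge
      have : N * m ≤ m * n1 := by
        rw [mul_comm N m]
        exact Nat.mul_le_mul_left m hge
      omega
    obtain ⟨D1, hE1, hE2, hE3⟩ := hN n1 hn1lt
    have hinj : Function.Injective (fun d : ℕ => m * d) := fun a b hab =>
      Nat.eq_of_mul_eq_mul_left hm hab
    have hdisj : Disjoint D (D1.image (fun d => m * d)) := by
      rw [Finset.disjoint_left]
      intro d hd hd'
      obtain ⟨d1, _, rfl⟩ := Finset.mem_image.1 hd'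
      exact hD5 _ hd (Dvd.intro d1 rfl)
    refine ⟨D ∪ D1.image (fun d => m * d), ?_, ?_, ?_⟩
    · apply Finset.union_subset (hD1.trans hsub)
      intro d hd
      obtain ⟨d1, hd1, rfl⟩ := Finset.mem_image.1 hd
      have hd1N : d1 ∣ N := Nat.dvd_of_mem_divisors (hE1 hd1)
      rw [Nat.mem_divisors]
      refine ⟨?_, hNm0⟩
      rw [mul_comm N m]
      exact Nat.mul_dvd_mul_left m hd1N
    · rw [Finset.card_union_of_disjoint hdisj, Finset.card_image_of_injective _ hinj]
      omega
    · rw [Finset.sum_union hdisj, Finset.sum_image (fun a _ b _ hab => hinj hab),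
        ← Finset.mul_sum, hE3, ← hn1]
      omega

theorem rep_two_pow (e : ℕ) : Rep (2 ^ e) e := by
  induction e with
  | zero =>
    intro n hn
    refine ⟨∅, by simp, by simp, ?_⟩
    simp at hn
    simp [hn]
  | succ e ih =>
    rw [pow_succ]
    apply rep_mul ih (by norm_num)
    intro n
    rcases Nat.even_or_odd n with hev | hodd
    · refine ⟨∅, by simp, by simp, by simp, ?_, by simp⟩
      simp only [Finset.sum_empty]
      exact ((Nat.modEq_zero_iff_dvd).2 hev.two_dvd).symm
    · refine ⟨{1}, ?_, by simp, ?_, ?_, by simp⟩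
      · intro d hd
        simp only [Finset.mem_singleton] at hd
        subst hd
        simp
      · simp only [Finset.sum_singleton]
        exact Nat.one_le_two_pow
      · simp only [Finset.sum_singleton]
        have := Nat.odd_iff.1 hodd
        unfold Nat.ModEq
        omega

theorem rep_base {e P : ℕ} (hP : Odd P) (hlt : P < 2 ^ e) : Rep (2 ^ e * P) (2 * e) := by
  by_cases hP1 : P = 1
  · subst hP1
    rw [mul_one]
    exact (rep_two_pow e).mono (by omega)
  · have hpos : 0 < P := hP.pos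
    rw [two_mul]
    apply rep_mul (rep_two_pow e) hpos
    intro n
    have hmod : n % P < 2 ^ e := (Nat.mod_lt n hpos).trans hlt
    obtain ⟨D, h1, h2, h3⟩ := rep_two_pow e (n % P) hmod
    refine ⟨D, h1, h2, ?_, ?_, ?_⟩
    · rw [h3]
      exact hmod.le
    · rw [h3]
      exact Nat.mod_modEq n P
    · intro d hd hPd
      have hd2 : d ∣ 2 ^ e := Nat.dvd_of_mem_divisors (h1 hd)
      have hP2 : P ∣ 2 ^ e := hPd.trans hd2
      have hcop : Nat.Coprime P (2 ^ e) := by
        apply Nat.Coprime.pow_right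
        exact Nat.coprime_two_right.2 hP
      exact hP1 (Nat.Coprime.eq_one_of_dvd hcop hP2)

end Vale.Agent.P012
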