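import Vale.Agent.P012.Defs
import Vale.Agent.P012.RepMul
import Vale.Agent.P012.Greedy
import Vale.Agent.P012.Core

namespace Vale.Agent.P012

open Finset

/-- Number of divisors after multiplying by new distinct primes. -/
theorem card_divisors_mul_prod_primes (Q : ℕ) (hQ : Q ≠ 0) (M : Finset ℕ)
    (hM : ∀ p ∈ M, p.Prime ∧ ¬ p ∣ Q) :
    (Q * ∏ p ∈ M, p).divisors.card = 2 ^ M.card * Q.divisors.card := by
  induction M using Finset.induction_on with
  | empty => simp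
  | insert p M hp ih =>
    have hM' : ∀ q ∈ M, q.Prime ∧ ¬ q ∣ Q := fun q hq => hM q (Finset.mem_insert_of_mem hq)
    have hpp : p.Prime := (hM p (Finset.mem_insert_self p M)).1
    have hpQ : ¬ p ∣ Q := (hM p (Finset.mem_insert_self p M)).2
    have hcop : Nat.Coprime p (Q * ∏ q ∈ M, q) := by
      apply Nat.Coprime.mul_right
      · exact (Nat.Prime.coprime_iff_not_dvd hpp).2 hpQ
      · apply Nat.Coprime.prod_right
        intro q hq
        apply (Nat.coprime_primes hpp (hM' q hq).1).2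
        rintro rfl
        exact hp hq
    rw [Finset.prod_insert hp, Finset.card_insert_of_notMem hp]
    have : Q * (p * ∏ q ∈ M, q) = p * (Q * ∏ q ∈ M, q) := by ring
    rw [this, Nat.Coprime.card_divisors_mul hcop, ih hM', hpp.divisors,
      Finset.card_pair hpp.one_lt.ne]
    ring

/-- Distinct primes dividing a positive integer `≤ 2 ^ l` number at most `l`. -/
theorem card_prime_divisors_le' (R : Finset ℕ) (hR : ∀ p ∈ R, p.Prime) (d l : ℕ)
    (hd0 : d ≠ 0) (hd : d ≤ 2 ^ l) (hdvd : ∀ p ∈ R, p ∣ d) : R.card ≤ l := by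
  have h1 : ∏ p ∈ R, p ∣ d := Finset.prod_primes_dvd d (fun p hp => (hR p hp).prime) hdvd
  have h2 : ∏ p ∈ R, p ≤ d := Nat.le_of_dvd (Nat.pos_of_ne_zero hd0) h1
  have h3 : 2 ^ R.card ≤ ∏ p ∈ R, p := by
    rw [← Finset.prod_const]
    exact Finset.prod_le_prod' fun p hp => (hR p hp).two_le
  exact (Nat.pow_le_pow_iff_right (by norm_num)).mp (h3.trans (h2.trans hd))

theorem one_add_inv_pow_le_three (s : ℕ) (hs : 1 ≤ s) : (1 + 1 / (s : ℝ)) ^ s ≤ 3 := by
  have hs' : (0 : ℝ) < s := by exact_mod_cast hs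
  have h1 : 1 + 1 / (s : ℝ) ≤ Real.exp (1 / (s : ℝ)) := by
    have := Real.add_one_le_exp (1 / (s : ℝ))
    linarith
  calc (1 + 1 / (s : ℝ)) ^ s ≤ (Real.exp (1 / (s : ℝ))) ^ s :=
        pow_le_pow_left₀ (by positivity) h1 s
    _ = Real.exp 1 := by
        rw [← Real.exp_nat_mul]
        congr 1
        field_simp
    _ ≤ 3 := by
        have := Real.exp_one_lt_d9
        linarith

/-- congruence modulo every prime of `M` gives congruence modulo the product. -/
theorem modEq_prod_primes (M : Finset ℕ) (hM : ∀ p ∈ M, p.Prime) (a b : ℕ)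
    (h : ∀ p ∈ M, a ≡ b [MOD p]) : a ≡ b [MOD ∏ p ∈ M, p] := by
  rw [Nat.modEq_iff_dvd]
  have h1 : ∀ p ∈ M, p ∣ ((b : ℤ) - a).natAbs := fun p hp =>
    Int.natCast_dvd.mp ((Nat.modEq_iff_dvd).1 (h p hp))
  have h2 : ∏ p ∈ M, p ∣ ((b : ℤ) - a).natAbs :=
    Finset.prod_primes_dvd _ (fun p hp => (hM p hp).prime) h1
  exact Int.natCast_dvd.mpr h2

theorem two_pow_mul_odd_inj (i j : Fin 4) (u v : ℕ) (hu : u % 2 = 1) (hv : v % 2 = 1)
    (h : 2 ^ (i : ℕ) * u = 2 ^ (j : ℕ) * v) : i = j := by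
  fin_cases i <;> fin_cases j <;> simp at h ⊢ <;> omega

/-- One stage of the construction: `Q` is multiplied by `s` new primes `≤ 2 ^ (8 t)`, at the cost of
`8` more summands. -/
theorem stage {e Q h ℓ s t : ℕ} (he : 4 ≤ e) (hQ : Odd Q) (hrep : Rep (2 ^ e * Q ^ 2) h)
    (hs : 1 ≤ s) (H1 : 2 * Q ≤ 2 ^ ℓ) (H2 : 2 ^ (7 * t * s) ≤ Q.divisors.card)
    (H3 : 512 * s ≤ 2 ^ (4 * t))
    (H4 : ℓ + s + s * ℓ * 2 ^ (7 * t) ≤ Nat.primeCounting (2 ^ (8 * t))) :
    ∃ μ : ℕ, Odd (Q * μ) ∧ μ ≤ 2 ^ (8 * t * s) ∧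
      (Q * μ).divisors.card = 2 ^ s * Q.divisors.card ∧ Rep (2 ^ e * (Q * μ) ^ 2) (h + 8) := by
  have hQpos : 0 < Q := hQ.pos
  have hQ0 : Q ≠ 0 := hQpos.ne'
  have hℓ : 1 ≤ ℓ := by
    by_contra hcon
    have : ℓ = 0 := by omega
    subst this
    simp at H1
    omega
  set Y : ℕ := 2 ^ (8 * t) with hY
  set A : Finset ℕ := Q.divisors with hA
  set P : Finset ℕ := (Nat.primesLE Y).filter (fun p => ¬ p ∣ 2 * Q) with hP
  have hPprime : ∀ p ∈ P, p.Prime := fun p hp =>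
    Nat.prime_of_mem_primesLE (Finset.mem_filter.mp hp).1
  -- size of the pool
  have hPcard : Nat.primeCounting Y ≤ P.card + ℓ := by
    have h1 : ((Nat.primesLE Y).filter (fun p => p ∣ 2 * Q)).card + P.card
        = (Nat.primesLE Y).card :=
      Finset.card_filter_add_card_filter_not (s := Nat.primesLE Y) (fun p => p ∣ 2 * Q)
    rw [Nat.primesLE_card_eq_primeCounting] at h1
    have h2 : ((Nat.primesLE Y).filter (fun p => p ∣ 2 * Q)).card ≤ ℓ := by
      apply card_prime_divisors_le' _ _ (2 * Q) ℓ (by omega) H1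
      · intro p hp
        exact (Finset.mem_filter.mp hp).2
      · intro p hp
        exact Nat.prime_of_mem_primesLE (Finset.mem_filter.mp hp).1
    omega
  set P0 : ℕ := s * ℓ * 2 ^ (7 * t) with hP0
  have hP0pos : 0 < P0 := by positivity
  have hcard : P0 + s ≤ P.card := by omega
  set lam : ℝ := (2 : ℝ) ^ (7 * t) with hlam
  have hlam1 : 1 ≤ lam := one_le_pow₀ (by norm_num)
  have hQl : (Q : ℤ) < 2 ^ ℓ := by
    have : Q < 2 ^ ℓ := by omega
    exact_mod_cast this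
  obtain ⟨M, hMP, hMc, hMpot⟩ := exists_good_primes A.offDiag
    (fun x : ℕ × ℕ => (x.1 : ℤ) - (x.2 : ℤ)) ℓ
    (by
      intro x hx
      have := (Finset.mem_offDiag.mp hx).2.2
      intro h0
      apply this
      have : (x.1 : ℤ) = x.2 := by linarith
      exact_mod_cast this)
    (by
      intro x hx
      have hx1 : x.1 ≤ Q := Nat.divisor_le (Finset.mem_offDiag.mp hx).1
      have hx2 : x.2 ≤ Q := Nat.divisor_le (Finset.mem_offDiag.mp hx).2.1
      have hx1' : (x.1 : ℤ) ≤ Q := by exact_mod_cast hx1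
      have hx2' : (x.2 : ℤ) ≤ Q := by exact_mod_cast hx2
      have hx1'' : (0 : ℤ) ≤ x.1 := Int.natCast_nonneg _
      have hx2'' : (0 : ℤ) ≤ x.2 := Int.natCast_nonneg _
      rw [abs_lt]
      constructor <;> linarith)
    P hPprime lam (by linarith) P0 s hP0pos hcard
  have hMprime : ∀ p ∈ M, p.Prime := fun p hp => hPprime p (hMP hp)
  have hMndvd : ∀ p ∈ M, ¬ p ∣ 2 * Q := fun p hp => (Finset.mem_filter.mp (hMP hp)).2
  have hMle : ∀ p ∈ M, p ≤ Y := fun p hp =>
    Nat.le_of_mem_primesLE (Finset.mem_filter.mp (hMP hp)).1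
  -- the potential bound
  have hpot : ∑ x ∈ A.offDiag,
      (1 + lam) ^ (M.filter (fun p : ℕ => (p : ℤ) ∣ (x.1 : ℤ) - (x.2 : ℤ))).card ≤
        3 * (A.card : ℝ) ^ 2 := by
    refine hMpot.trans ?_
    have h1 : lam * ℓ / P0 = 1 / (s : ℝ) := by
      have hs' : (s : ℝ) ≠ 0 := by
        have : (0 : ℝ) < s := by exact_mod_cast hs
        exact this.ne'
      have hl' : (ℓ : ℝ) ≠ 0 := by
        have : (0 : ℝ) < ℓ := by exact_mod_cast hℓ
        exact this.ne'
      have hlam0 : lam ≠ 0 := by linarith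
      rw [hP0]
      push_cast
      rw [← hlam]
      field_simp
    rw [h1]
    have h2 : ((A.offDiag.card : ℕ) : ℝ) ≤ (A.card : ℝ) ^ 2 := by
      have : A.offDiag.card ≤ A.card ^ 2 := by
        rw [Finset.offDiag_card, sq]
        exact Nat.sub_le _ _
      exact_mod_cast this
    exact mul_le_mul (one_add_inv_pow_le_three s hs) h2 (Nat.cast_nonneg _) (by norm_num)
  have hAbig : lam ^ M.card ≤ (A.card : ℝ) := by
    rw [hMc, hlam, ← pow_mul]
    exact_mod_cast H2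
  have hbig : 512 * (M.card : ℝ) * (Y : ℝ) ^ 3 ≤ lam ^ 4 := by
    rw [hMc, hlam, hY]
    push_cast
    have h3 : (512 : ℝ) * s ≤ 2 ^ (4 * t) := by exact_mod_cast H3
    have h4 : ((2 : ℝ) ^ (7 * t)) ^ 4 = 2 ^ (4 * t) * ((2 : ℝ) ^ (8 * t)) ^ 3 := by
      rw [← pow_mul, ← pow_mul, ← pow_add]
      congr 1
      ring
    rw [h4]
    exact mul_le_mul_of_nonneg_right h3 (by positivity)
  have hcore := core M (fun p hp => ⟨hMprime p hp, by
      rintro rfl
      exact hMndvd 2 hp (Dvd.intro Q rfl)⟩) Y hMle A lam hlam1 hpot hAbig hbig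
  set μ : ℕ := ∏ p ∈ M, p with hμ
  have hμpos : 0 < μ := Finset.prod_pos fun p hp => (hMprime p hp).pos
  have hμcop : Nat.Coprime μ (2 * Q) := by
    apply Nat.Coprime.prod_left
    intro p hp
    exact (Nat.Prime.coprime_iff_not_dvd (hMprime p hp)).2 (hMndvd p hp)
  have hμcop2 : Nat.Coprime μ 2 := Nat.Coprime.coprime_mul_right_right hμcop
  have hμcopQ : Nat.Coprime μ Q := Nat.Coprime.coprime_mul_left_right hμcop
  have hμne1 : μ ≠ 1 := by
    have hMne : M.Nonempty := Finset.card_pos.mp (by omega)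
    obtain ⟨p, hp⟩ := hMne
    intro h1
    have : p ∣ μ := Finset.dvd_prod_of_mem (fun p => p) hp
    rw [h1] at this
    exact (hMprime p hp).one_lt.ne' (Nat.dvd_one.mp this)
  have hμle : μ ≤ 2 ^ (8 * t * s) := by
    calc μ ≤ Y ^ M.card := Finset.prod_le_pow_card M (fun p => p) Y hMle
      _ = 2 ^ (8 * t * s) := by rw [hMc, hY, ← pow_mul]
  set N : ℕ := 2 ^ e * Q ^ 2 with hN
  have hNpos : 0 < N := by positivity
  have hμcopN : Nat.Coprime μ N := by
    apply Nat.Coprime.mul_right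
    · exact Nat.Coprime.pow_right _ hμcop2
    · exact Nat.Coprime.pow_right _ hμcopQ
  have hres : ∀ n : ℕ, ∃ D : Finset ℕ, D ⊆ N.divisors ∧ D.card ≤ 4 ∧ ∑ d ∈ D, d ≤ N ∧
      (∑ d ∈ D, d) ≡ n [MOD μ] ∧ ∀ d ∈ D, ¬ μ ∣ d := by
    intro n
    obtain ⟨f, hfA, hfmod⟩ := hcore n
    set g : Fin 4 → ℕ := fun j => 2 ^ (j : ℕ) * (f j).1 * (f j).2 with hg
    have hodd : ∀ j, ((f j).1 * (f j).2) % 2 = 1 := by
      intro j
      have h1 : (f j).1 ∣ Q := Nat.dvd_of_mem_divisors (hfA j).1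
      have h2 : (f j).2 ∣ Q := Nat.dvd_of_mem_divisors (hfA j).2
      have o1 : Odd (f j).1 := Odd.of_dvd_nat hQ h1
      have o2 : Odd (f j).2 := Odd.of_dvd_nat hQ h2
      exact Nat.odd_iff.1 (o1.mul o2)
    have hginj : Function.Injective g := by
      intro i j hij
      apply two_pow_mul_odd_inj i j _ _ (hodd i) (hodd j)
      simp only [hg] at hij
      rw [← mul_assoc, ← mul_assoc]
      exact hij
    have hgdvd : ∀ j, g j ∣ N := by
      intro j
      have h1 : (f j).1 ∣ Q := Nat.dvd_of_mem_divisors (hfA j).1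
      have h2 : (f j).2 ∣ Q := Nat.dvd_of_mem_divisors (hfA j).2
      have h3 : 2 ^ (j : ℕ) ∣ 2 ^ e := pow_dvd_pow 2 (by have := j.2; omega)
      simp only [hg, hN]
      rw [mul_assoc, sq]
      exact Nat.mul_dvd_mul h3 (Nat.mul_dvd_mul h1 h2)
    have hsum : ∑ d ∈ Finset.univ.image g, d = ∑ j : Fin 4, g j :=
      Finset.sum_image (fun a _ b _ hab => hginj hab)
    refine ⟨Finset.univ.image g, ?_, ?_, ?_, ?_, ?_⟩
    · intro d hd
      obtain ⟨j, _, rfl⟩ := Finset.mem_image.1 hd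
      exact Nat.mem_divisors.2 ⟨hgdvd j, hNpos.ne'⟩
    · calc (Finset.univ.image g).card ≤ (Finset.univ : Finset (Fin 4)).card := Finset.card_image_le
        _ = 4 := by simp
    · rw [hsum]
      have hb : ∀ j : Fin 4, g j ≤ 2 ^ (j : ℕ) * Q ^ 2 := by
        intro j
        have h1 : (f j).1 ≤ Q := Nat.divisor_le (hfA j).1
        have h2 : (f j).2 ≤ Q := Nat.divisor_le (hfA j).2
        simp only [hg]
        rw [mul_assoc, sq]
        exact Nat.mul_le_mul_left _ (Nat.mul_le_mul h1 h2)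
      calc ∑ j : Fin 4, g j ≤ ∑ j : Fin 4, 2 ^ (j : ℕ) * Q ^ 2 :=
            Finset.sum_le_sum fun j _ => hb j
        _ = 15 * Q ^ 2 := by
            simp [Fin.sum_univ_four]
            ring
        _ ≤ 2 ^ e * Q ^ 2 := by
            apply Nat.mul_le_mul_right
            calc 15 ≤ 2 ^ 4 := by norm_num
              _ ≤ 2 ^ e := Nat.pow_le_pow_right (by norm_num) he
    · rw [hsum]
      exact modEq_prod_primes M hMprime _ _ hfmod
    · intro d hd hμd
      obtain ⟨j, _, rfl⟩ := Finset.mem_image.1 hd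
      exact hμne1 (Nat.Coprime.eq_one_of_dvd hμcopN (hμd.trans (hgdvd j)))
  have r1 : Rep (N * μ) (h + 4) := rep_mul hrep hμpos hres
  have hres' : ∀ n : ℕ, ∃ D : Finset ℕ, D ⊆ (N * μ).divisors ∧ D.card ≤ 4 ∧
      ∑ d ∈ D, d ≤ N * μ ∧ (∑ d ∈ D, d) ≡ n [MOD μ] ∧ ∀ d ∈ D, ¬ μ ∣ d := by
    intro n
    obtain ⟨D, h1, h2, h3, h4, h5⟩ := hres n
    refine ⟨D, h1.trans (Nat.divisors_subset_of_dvd (by positivity) (Dvd.intro μ rfl)), h2,
      h3.trans (Nat.le_mul_of_pos_right N hμpos), h4, h5⟩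
  have r2 : Rep (N * μ * μ) (h + 4 + 4) := rep_mul r1 hμpos hres'
  refine ⟨μ, ?_, hμle, ?_, ?_⟩
  · exact hQ.mul (Nat.coprime_two_right.1 hμcop2)
  · rw [hμ, card_divisors_mul_prod_primes Q hQ0 M (fun p hp => ⟨hMprime p hp, fun hd =>
      hMndvd p hp (Dvd.dvd.mul_left hd 2)⟩), hMc]
  · have h1 : 2 ^ e * (Q * μ) ^ 2 = N * μ * μ := by
      rw [hN]
      ring
    rw [h1]
    exact r2

end Vale.Agent.P012
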