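import Vale.Agent.P012.RepB

namespace Vale.Agent.P012

open Finset

/-- One stage of the bounded construction: `Q` is multiplied by `s` new primes in
`(2 ^ (4 t), 2 ^ (8 t)]`, at the cost of `8` more summands; only the divisors in `A` (all `≤ Z`)
are used, and the range `X` is multiplied by `μ ^ 2`. -/
theorem stageB {e Q X h ℓ s t Z : ℕ} (he : 4 ≤ e) (hQ : Odd Q)
    (hrep : RepB (2 ^ e * Q ^ 2) X h)
    (hs : 1 ≤ s) (H1 : 2 * Q ≤ 2 ^ ℓ) (A : Finset ℕ) (hAQ : A ⊆ Q.divisors)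
    (hAZ : ∀ a ∈ A, a ≤ Z) (hZ : 15 * Z ^ 2 ≤ X) (H2 : 2 ^ (7 * t * s) ≤ A.card)
    (H3 : 512 * s ≤ 2 ^ (4 * t))
    (H4 : 2 ^ (4 * t) + ℓ + s + s * ℓ * 2 ^ (7 * t) ≤ Nat.primeCounting (2 ^ (8 * t))) :
    ∃ μ : ℕ, Odd (Q * μ) ∧ 2 ^ (4 * t * s) ≤ μ ∧ μ ≤ 2 ^ (8 * t * s) ∧
      RepB (2 ^ e * (Q * μ) ^ 2) (X * μ ^ 2) (h + 8) := by
  have hQpos : 0 < Q := hQ.pos
  have hQ0 : Q ≠ 0 := hQpos.ne'
  have hℓ : 1 ≤ ℓ := by
    by_contra hcon
    have : ℓ = 0 := by omega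
    subst this
    simp at H1
    omega
  set Y : ℕ := 2 ^ (8 * t) with hY
  set P1 : Finset ℕ := (Nat.primesLE Y).filter (fun p => ¬ p ∣ 2 * Q) with hP1
  set P : Finset ℕ := P1.filter (fun p => 2 ^ (4 * t) < p) with hP
  have hPprime : ∀ p ∈ P, p.Prime := fun p hp =>
    Nat.prime_of_mem_primesLE (Finset.mem_filter.mp (Finset.mem_filter.mp hp).1).1
  -- size of the pool
  have hP1card : Nat.primeCounting Y ≤ P1.card + ℓ := by
    have h1 : ((Nat.primesLE Y).filter (fun p => p ∣ 2 * Q)).card + P1.card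
        = (Nat.primesLE Y).card :=
      Finset.card_filter_add_card_filter_not (s := Nat.primesLE Y) (fun p => p ∣ 2 * Q)
    rw [Nat.primesLE_card_eq_primeCounting] at h1
    have h2 : ((Nat.primesLE Y).filter (fun p => p ∣ 2 * Q)).card ≤ ℓ := by
      apply card_prime_divisors_le' _ _ (2 * Q) ℓ (by omega) H1
      · intro p hp
        exact (Finset.mem_filter.mp hp).2
      · intro p hp
        exact Nat.prime_of_mem_primesLE (Finset.mem_filter.mp hp).1
    omega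
  have hPcard : Nat.primeCounting Y ≤ P.card + ℓ + 2 ^ (4 * t) := by
    have h1 : P.card + (P1.filter (fun p => ¬ 2 ^ (4 * t) < p)).card = P1.card :=
      Finset.card_filter_add_card_filter_not (s := P1) (fun p => 2 ^ (4 * t) < p)
    have h2 : (P1.filter (fun p => ¬ 2 ^ (4 * t) < p)).card ≤ 2 ^ (4 * t) := by
      have hsub : P1.filter (fun p => ¬ 2 ^ (4 * t) < p) ⊆ Finset.Icc 1 (2 ^ (4 * t)) := by
        intro p hp
        have hp1 := Finset.mem_filter.mp hp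
        have hpp : p.Prime :=
          Nat.prime_of_mem_primesLE (Finset.mem_filter.mp hp1.1).1
        rw [Finset.mem_Icc]
        exact ⟨hpp.one_lt.le, not_lt.mp hp1.2⟩
      calc _ ≤ (Finset.Icc 1 (2 ^ (4 * t))).card := Finset.card_le_card hsub
        _ = 2 ^ (4 * t) := by simp
    omega
  set P0 : ℕ := s * ℓ * 2 ^ (7 * t) with hP0
  have hP0pos : 0 < P0 := by positivity
  have hcard : P0 + s ≤ P.card := by omega
  set lam : ℝ := (2 : ℝ) ^ (7 * t) with hlam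
  have hlam1 : 1 ≤ lam := one_le_pow₀ (by norm_num)
  have hQl : (Q : ℤ) < 2 ^ ℓ := by
    have : Q < 2 ^ ℓ := by omega
    exact_mod_cast this
  obtain ⟨M, hMP, hMc, hMpot⟩ := exists_good_primes A.offDiag
    (fun x : ℕ × ℕ => (x.1 : ℤ) - (x.2 : ℤ)) ℓ
    (by
      intro x hx
      have := (Finset.mem_offDiag.mp hx).2.2
      intro h0
      apply this
      have : (x.1 : ℤ) = x.2 := by linarith
      exact_mod_cast this)
    (by
      intro x hx
      have hx1 : x.1 ≤ Q := Nat.divisor_le (hAQ (Finset.mem_offDiag.mp hx).1)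
      have hx2 : x.2 ≤ Q := Nat.divisor_le (hAQ (Finset.mem_offDiag.mp hx).2.1)
      have hx1' : (x.1 : ℤ) ≤ Q := by exact_mod_cast hx1
      have hx2' : (x.2 : ℤ) ≤ Q := by exact_mod_cast hx2
      have hx1'' : (0 : ℤ) ≤ x.1 := Int.natCast_nonneg _
      have hx2'' : (0 : ℤ) ≤ x.2 := Int.natCast_nonneg _
      rw [abs_lt]
      constructor <;> linarith)
    P hPprime lam (by linarith) P0 s hP0pos hcard
  have hMprime : ∀ p ∈ M, p.Prime := fun p hp => hPprime p (hMP hp)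
  have hMndvd : ∀ p ∈ M, ¬ p ∣ 2 * Q := fun p hp =>
    (Finset.mem_filter.mp (Finset.mem_filter.mp (hMP hp)).1).2
  have hMle : ∀ p ∈ M, p ≤ Y := fun p hp =>
    Nat.le_of_mem_primesLE (Finset.mem_filter.mp (Finset.mem_filter.mp (hMP hp)).1).1
  have hMge : ∀ p ∈ M, 2 ^ (4 * t) ≤ p := fun p hp => (Finset.mem_filter.mp (hMP hp)).2.le
  -- the potential bound
  have hpot : ∑ x ∈ A.offDiag,
      (1 + lam) ^ (M.filter (fun p : ℕ => (p : ℤ) ∣ (x.1 : ℤ) - (x.2 : ℤ))).card ≤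
        3 * (A.card : ℝ) ^ 2 := by
    refine hMpot.trans ?_
    have h1 : lam * ℓ / P0 = 1 / (s : ℝ) := by
      have hs' : (s : ℝ) ≠ 0 := by
        have : (0 : ℝ) < s := by exact_mod_cast hs
        exact this.ne'
      have hl' : (ℓ : ℝ) ≠ 0 := by
        have : (0 : ℝ) < ℓ := by exact_mod_cast hℓ
        exact this.ne'
      have hlam0 : lam ≠ 0 := by linarith
      rw [hP0]
      push_cast
      rw [← hlam]
      field_simp
    rw [h1]
    have h2 : ((A.offDiag.card : ℕ) : ℝ) ≤ (A.card : ℝ) ^ 2 := by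
      have : A.offDiag.card ≤ A.card ^ 2 := by
        rw [Finset.offDiag_card, sq]
        exact Nat.sub_le _ _
      exact_mod_cast this
    exact mul_le_mul (one_add_inv_pow_le_three s hs) h2 (Nat.cast_nonneg _) (by norm_num)
  have hAbig : lam ^ M.card ≤ (A.card : ℝ) := by
    rw [hMc, hlam, ← pow_mul]
    exact_mod_cast H2
  have hbig : 512 * (M.card : ℝ) * (Y : ℝ) ^ 3 ≤ lam ^ 4 := by
    rw [hMc, hlam, hY]
    push_cast
    have h3 : (512 : ℝ) * s ≤ 2 ^ (4 * t) := by exact_mod_cast H3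
    have h4 : ((2 : ℝ) ^ (7 * t)) ^ 4 = 2 ^ (4 * t) * ((2 : ℝ) ^ (8 * t)) ^ 3 := by
      rw [← pow_mul, ← pow_mul, ← pow_add]
      congr 1
      ring
    rw [h4]
    exact mul_le_mul_of_nonneg_right h3 (by positivity)
  have hcore := core M (fun p hp => ⟨hMprime p hp, by
      rintro rfl
      exact hMndvd 2 hp (Dvd.intro Q rfl)⟩) Y hMle A lam hlam1 hpot hAbig hbig
  set μ : ℕ := ∏ p ∈ M, p with hμ
  have hμpos : 0 < μ := Finset.prod_pos fun p hp => (hMprime p hp).pos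
  have hμcop : Nat.Coprime μ (2 * Q) := by
    apply Nat.Coprime.prod_left
    intro p hp
    exact (Nat.Prime.coprime_iff_not_dvd (hMprime p hp)).2 (hMndvd p hp)
  have hμcop2 : Nat.Coprime μ 2 := Nat.Coprime.coprime_mul_right_right hμcop
  have hμcopQ : Nat.Coprime μ Q := Nat.Coprime.coprime_mul_left_right hμcop
  have hμne1 : μ ≠ 1 := by
    have hMne : M.Nonempty := Finset.card_pos.mp (by omega)
    obtain ⟨p, hp⟩ := hMne
    intro h1
    have : p ∣ μ := Finset.dvd_prod_of_mem (fun p => p) hp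
    rw [h1] at this
    exact (hMprime p hp).one_lt.ne' (Nat.dvd_one.mp this)
  have hμle : μ ≤ 2 ^ (8 * t * s) := by
    calc μ ≤ Y ^ M.card := Finset.prod_le_pow_card M (fun p => p) Y hMle
      _ = 2 ^ (8 * t * s) := by rw [hMc, hY, ← pow_mul]
  have hμge : 2 ^ (4 * t * s) ≤ μ := by
    calc 2 ^ (4 * t * s) = (2 ^ (4 * t)) ^ M.card := by rw [hMc, ← pow_mul]
      _ ≤ μ := Finset.pow_card_le_prod M (fun p => p) _ hMge
  set N : ℕ := 2 ^ e * Q ^ 2 with hN
  have hNpos : 0 < N := by positivity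
  have hμcopN : Nat.Coprime μ N := by
    apply Nat.Coprime.mul_right
    · exact Nat.Coprime.pow_right _ hμcop2
    · exact Nat.Coprime.pow_right _ hμcopQ
  have hres : ∀ n : ℕ, ∃ D : Finset ℕ, D ⊆ N.divisors ∧ D.card ≤ 4 ∧ ∑ d ∈ D, d ≤ X ∧
      (∑ d ∈ D, d) ≡ n [MOD μ] ∧ ∀ d ∈ D, ¬ μ ∣ d := by
    intro n
    obtain ⟨f, hfA, hfmod⟩ := hcore n
    set g : Fin 4 → ℕ := fun j => 2 ^ (j : ℕ) * (f j).1 * (f j).2 with hg
    have hodd : ∀ j, ((f j).1 * (f j).2) % 2 = 1 := by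
      intro j
      have h1 : (f j).1 ∣ Q := Nat.dvd_of_mem_divisors (hAQ (hfA j).1)
      have h2 : (f j).2 ∣ Q := Nat.dvd_of_mem_divisors (hAQ (hfA j).2)
      have o1 : Odd (f j).1 := Odd.of_dvd_nat hQ h1
      have o2 : Odd (f j).2 := Odd.of_dvd_nat hQ h2
      exact Nat.odd_iff.1 (o1.mul o2)
    have hginj : Function.Injective g := by
      intro i j hij
      apply two_pow_mul_odd_inj i j _ _ (hodd i) (hodd j)
      simp only [hg] at hij
      rw [← mul_assoc, ← mul_assoc]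
      exact hij
    have hgdvd : ∀ j, g j ∣ N := by
      intro j
      have h1 : (f j).1 ∣ Q := Nat.dvd_of_mem_divisors (hAQ (hfA j).1)
      have h2 : (f j).2 ∣ Q := Nat.dvd_of_mem_divisors (hAQ (hfA j).2)
      have h3 : 2 ^ (j : ℕ) ∣ 2 ^ e := pow_dvd_pow 2 (by have := j.2; omega)
      simp only [hg, hN]
      rw [mul_assoc, sq]
      exact Nat.mul_dvd_mul h3 (Nat.mul_dvd_mul h1 h2)
    have hsum : ∑ d ∈ Finset.univ.image g, d = ∑ j : Fin 4, g j :=
      Finset.sum_image (fun a _ b _ hab => hginj hab)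
    refine ⟨Finset.univ.image g, ?_, ?_, ?_, ?_, ?_⟩
    · intro d hd
      obtain ⟨j, _, rfl⟩ := Finset.mem_image.1 hd
      exact Nat.mem_divisors.2 ⟨hgdvd j, hNpos.ne'⟩
    · calc (Finset.univ.image g).card ≤ (Finset.univ : Finset (Fin 4)).card := Finset.card_image_le
        _ = 4 := by simp
    · rw [hsum]
      have hb : ∀ j : Fin 4, g j ≤ 2 ^ (j : ℕ) * Z ^ 2 := by
        intro j
        have h1 : (f j).1 ≤ Z := hAZ _ (hfA j).1
        have h2 : (f j).2 ≤ Z := hAZ _ (hfA j).2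
        simp only [hg]
        rw [mul_assoc, sq]
        exact Nat.mul_le_mul_left _ (Nat.mul_le_mul h1 h2)
      calc ∑ j : Fin 4, g j ≤ ∑ j : Fin 4, 2 ^ (j : ℕ) * Z ^ 2 :=
            Finset.sum_le_sum fun j _ => hb j
        _ = 15 * Z ^ 2 := by
            simp [Fin.sum_univ_four]
            ring
        _ ≤ X := hZ
    · rw [hsum]
      exact modEq_prod_primes M hMprime _ _ hfmod
    · intro d hd hμd
      obtain ⟨j, _, rfl⟩ := Finset.mem_image.1 hd
      exact hμne1 (Nat.Coprime.eq_one_of_dvd hμcopN (hμd.trans (hgdvd j)))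
  have r1 : RepB (N * μ) (X * μ) (h + 4) := repB_mul hNpos.ne' hrep hμpos hres
  have hres' : ∀ n : ℕ, ∃ D : Finset ℕ, D ⊆ (N * μ).divisors ∧ D.card ≤ 4 ∧
      ∑ d ∈ D, d ≤ X * μ ∧ (∑ d ∈ D, d) ≡ n [MOD μ] ∧ ∀ d ∈ D, ¬ μ ∣ d := by
    intro n
    obtain ⟨D, h1, h2, h3, h4, h5⟩ := hres n
    refine ⟨D, h1.trans (Nat.divisors_subset_of_dvd (by positivity) (Dvd.intro μ rfl)), h2,
      h3.trans (Nat.le_mul_of_pos_right X hμpos), h4, h5⟩
  have r2 : RepB (N * μ * μ) (X * μ * μ) (h + 4 + 4) :=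
    repB_mul (by positivity) r1 hμpos hres'
  refine ⟨μ, ?_, hμge, hμle, ?_⟩
  · exact hQ.mul (Nat.coprime_two_right.1 hμcop2)
  · have h1 : 2 ^ e * (Q * μ) ^ 2 = N * μ * μ := by
      rw [hN]
      ring
    have h2 : X * μ ^ 2 = X * μ * μ := by ring
    rw [h1, h2]
    exact r2

end Vale.Agent.P012
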